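import Vale.Agent.P058.Even

/-!
# P058 — the colour depends only on the sequence of nonzero absolute values
-/

namespace Vale.Agent.P058

open scoped BigOperators

theorem exists_abs_words (κ : Type) [Finite κ] (S : Finset ℝ) (m : ℕ) :
    ∃ D : ℕ, ∀ c : (Fin D → ℝ) → κ, ∃ ι : (Fin m → ℝ) → (Fin D → ℝ),
      (∀ z z', ∑ j, (ι z j - ι z' j) ^ 2 = ∑ i, (z i - z' i) ^ 2) ∧
      ∀ z z' : Fin m → ℝ, (∀ i, z i ∈ S) → (∀ i, z' i ∈ S) →
        (List.ofFn fun i => |z i|).filter (· ≠ 0) = (List.ofFn fun i => |z' i|).filter (· ≠ 0) →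
        c (ι z) = c (ι z') := by
  classical
  let S' : Finset ℝ := insert 0 (S ∪ S.image fun x => |x|)
  have h0S : (0 : ℝ) ∈ S' := Finset.mem_insert_self _ _
  have hS1 : ∀ x ∈ S, x ∈ S' := fun x hx =>
    Finset.mem_insert_of_mem (Finset.mem_union_left _ hx)
  have hS2 : ∀ x ∈ S, |x| ∈ S' := fun x hx =>
    Finset.mem_insert_of_mem (Finset.mem_union_right _ (Finset.mem_image_of_mem _ hx))
  obtain ⟨M, hM⟩ := ramsey_words (σ := S') (κ := κ) ⟨0, h0S⟩ m
  obtain ⟨D, hD⟩ := exists_even κ (S.image fun x => |x|).toList S' M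
  refine ⟨D, fun c => ?_⟩
  obtain ⟨ι1, hι1, hc1⟩ := hD c
  obtain ⟨p, hp, hpc⟩ := hM fun w => c (ι1 fun i => (w i : ℝ))
  refine ⟨fun z => ι1 (Function.extend p z fun _ => 0), ?_, ?_⟩
  · intro z z'
    rw [hι1, sum_extend_sub_sq hp.injective]
  · -- replacing a point by its absolute value
    have habs : ∀ z : Fin m → ℝ, (∀ i, z i ∈ S) →
        c (ι1 (Function.extend p z fun _ => 0)) =
          c (ι1 (Function.extend p (fun i => |z i|) fun _ => 0)) := by
      intro z hz
      refine hc1 _ _ ?_ ?_ ?_
      · intro j
        by_cases hj : ∃ i, p i = j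
        · obtain ⟨i, rfl⟩ := hj
          rw [hp.injective.extend_apply]
          exact hS1 _ (hz i)
        · rw [Function.extend_apply' _ _ _ hj]
          exact h0S
      · intro j
        by_cases hj : ∃ i, p i = j
        · obtain ⟨i, rfl⟩ := hj
          rw [hp.injective.extend_apply]
          exact hS2 _ (hz i)
        · rw [Function.extend_apply' _ _ _ hj]
          exact h0S
      · intro j
        by_cases hj : ∃ i, p i = j
        · obtain ⟨i, rfl⟩ := hj
          rw [hp.injective.extend_apply, hp.injective.extend_apply]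
          rcases abs_choice (z i) with h | h
          · left; exact h
          · right
            exact ⟨Finset.mem_toList.2 (Finset.mem_image_of_mem _ (hz i)), h⟩
        · left
          rw [Function.extend_apply' _ _ _ hj, Function.extend_apply' _ _ _ hj]
    intro z z' hz hz' hw
    rw [habs z hz, habs z' hz']
    let lift : ∀ y : Fin m → ℝ, (∀ i, y i ∈ S) → Fin m → S' :=
      fun y hy k => ⟨|y k|, hS2 _ (hy k)⟩
    have hlift : ∀ (y : Fin m → ℝ) (hy : ∀ i, y i ∈ S),
        (fun j => ((Function.extend p (lift y hy) (fun _ => (⟨0, h0S⟩ : S')) j : S') : ℝ)) =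
          Function.extend p (fun i => |y i|) fun _ => 0 := by
      intro y hy
      funext j
      by_cases hj : ∃ i, p i = j
      · obtain ⟨i, rfl⟩ := hj
        rw [hp.injective.extend_apply, hp.injective.extend_apply]
      · rw [Function.extend_apply' _ _ _ hj, Function.extend_apply' _ _ _ hj]
    have step2 := hpc (lift z hz) (lift z' hz') ?_
    · rw [hlift z hz, hlift z' hz'] at step2
      exact step2
    · have hinj : Function.Injective (List.map (Subtype.val : S' → ℝ)) :=
        List.map_injective_iff.2 Subtype.val_injective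
      apply hinj
      have hmf : ∀ l : List S', List.map (Subtype.val : S' → ℝ)
          (l.filter fun x => decide (x ≠ ⟨0, h0S⟩)) =
          (l.map (Subtype.val : S' → ℝ)).filter fun x => decide (x ≠ 0) := by
        intro l
        rw [List.filter_map]
        congr 1
        apply List.filter_congr
        intro x _
        simp [Subtype.ext_iff]
      rw [hmf, hmf, List.map_ofFn, List.map_ofFn]
      exact hw

end Vale.Agent.P058
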