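import Mathlib

/-!
# P058 — derivations of `ℝ`

Every transcendental real number `s` admits a derivation `δ` of `ℝ` with `δ s = 1`.
-/

namespace Vale.Agent.P058

open scoped IntermediateField.algebraAdjoinAdjoin in
/-- derivations of `ℝ` with prescribed values on a transcendence basis -/
theorem exists_derivation_basis {ι : Type} {v : ι → ℝ} (hv : IsTranscendenceBasis ℚ v)
    (a : ι → ℝ) : ∃ δ : Derivation ℚ ℝ ℝ, ∀ i, δ (v i) = a i := by
  let _ : Algebra (MvPolynomial ι ℚ) ℝ := (MvPolynomial.aeval v).toAlgebra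
  let _ : Algebra (MvPolynomial ι ℚ) (Algebra.adjoin ℚ (Set.range v)) :=
    (hv.1.aevalEquiv : MvPolynomial ι ℚ →ₐ[ℚ] Algebra.adjoin ℚ (Set.range v)).toRingHom.toAlgebra
  have _ : IsScalarTower (MvPolynomial ι ℚ) (Algebra.adjoin ℚ (Set.range v)) ℝ := by
    refine IsScalarTower.of_algebraMap_eq fun x => ?_
    change MvPolynomial.aeval v x = ((hv.1.aevalEquiv x : Algebra.adjoin ℚ (Set.range v)) : ℝ)
    simp
  have h1 : Algebra.FormallyEtale (MvPolynomial ι ℚ) (Algebra.adjoin ℚ (Set.range v)) := by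
    refine Algebra.FormallyEtale.of_equiv (R := MvPolynomial ι ℚ) (A := MvPolynomial ι ℚ)
      (AlgEquiv.ofBijective (Algebra.ofId _ _) ?_)
    exact hv.1.aevalEquiv.bijective
  have h2 : Algebra.FormallyEtale (Algebra.adjoin ℚ (Set.range v))
      (IntermediateField.adjoin ℚ (Set.range v)) :=
    .of_isLocalization (nonZeroDivisors _)
  have h3 : Algebra.IsAlgebraic (IntermediateField.adjoin ℚ (Set.range v)) ℝ :=
    hv.isAlgebraic_field
  have h4 : Algebra.FormallyEtale (IntermediateField.adjoin ℚ (Set.range v)) ℝ :=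
    Algebra.FormallyEtale.of_isSeparable _ ℝ
  have h5 : Algebra.FormallyEtale (Algebra.adjoin ℚ (Set.range v)) ℝ :=
    .comp _ (IntermediateField.adjoin ℚ (Set.range v)) _
  have h6 : Algebra.FormallyEtale (MvPolynomial ι ℚ) ℝ :=
    .comp _ (Algebra.adjoin ℚ (Set.range v)) _
  let d : Derivation ℚ (MvPolynomial ι ℚ) ℝ := MvPolynomial.mkDerivation ℚ a
  let L : Ω[ℝ⁄ℚ] →ₗ[ℝ] ℝ :=
    (LinearMap.liftBaseChange ℝ d.liftKaehlerDifferential) ∘ₗ
      (KaehlerDifferential.tensorKaehlerEquivOfFormallyEtale ℚ (MvPolynomial ι ℚ) ℝ).symm.toLinearMap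
  refine ⟨L.compDer (KaehlerDifferential.D ℚ ℝ), fun i => ?_⟩
  have hi : v i = algebraMap (MvPolynomial ι ℚ) ℝ (MvPolynomial.X i) := by
    change v i = MvPolynomial.aeval v (MvPolynomial.X i)
    simp
  change (LinearMap.liftBaseChange ℝ d.liftKaehlerDifferential)
    ((KaehlerDifferential.tensorKaehlerEquivOfFormallyEtale ℚ (MvPolynomial ι ℚ) ℝ).symm
      (KaehlerDifferential.D ℚ ℝ (v i))) = a i
  rw [hi, KaehlerDifferential.tensorKaehlerEquivOfFormallyEtale_symm_D_algebraMap]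
  simp [d]

/-- prescribed values on an algebraically independent family -/
theorem exists_derivation_of_algebraicIndependent {κ : Type} {s : κ → ℝ}
    (hs : AlgebraicIndependent ℚ s) (a : κ → ℝ) :
    ∃ δ : Derivation ℚ ℝ ℝ, ∀ i, δ (s i) = a i := by
  classical
  have hinj := hs.injective
  have hs' : AlgebraicIndependent ℚ ((↑) : Set.range s → ℝ) := hs.coe_range
  obtain ⟨t, hst, ht⟩ := exists_isTranscendenceBasis_superset hs'
  obtain ⟨δ, hδ⟩ := exists_derivation_basis ht
    (fun x => if h : ∃ i, s i = x then a h.choose else 0)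
  refine ⟨δ, fun i => ?_⟩
  have := hδ ⟨s i, hst ⟨i, rfl⟩⟩
  rw [this]
  have h : ∃ j, s j = s i := ⟨i, rfl⟩
  simp only [h, dif_pos]
  congr 1
  exact hinj h.choose_spec

theorem exists_derivation {s : ℝ} (hs : Transcendental ℚ s) :
    ∃ δ : Derivation ℚ ℝ ℝ, δ s = 1 := by
  have h : AlgebraicIndependent ℚ (fun _ : Unit => s) :=
    algebraicIndependent_unique_type_iff.2 hs
  obtain ⟨δ, hδ⟩ := exists_derivation_of_algebraicIndependent h (fun _ => 1)
  exact ⟨δ, hδ ()⟩

end Vale.Agent.P058
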