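import Vale.Agent.P058.Obstruction
import Vale.Agent.P058.Der

/-!
# P058 — generic subsets of a circle are not Ramsey
-/

namespace Vale.Agent.P058

open scoped BigOperators

/-- **Derivation criterion.** -/
theorem not_isRamsey_of_derivation {ι : Type} [Fintype ι] {d : ℕ}
    (p : ι → EuclideanSpace ℝ (Fin d)) (hp : affineSpan ℝ (Set.range p) = ⊤)
    (δ : Derivation ℚ ℝ ℝ) (μ : ι → ℝ)
    (h0 : ∑ j, μ j = 0) (h1 : ∀ a, ∑ j, μ j * p j a = 0)
    (h2 : ∀ a b, ∑ j, μ j * (p j a * p j b) = 0)
    (h3 : ∀ a, ∑ j, μ j * δ (p j a) = 0)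
    (h4 : ∀ a b, ∑ j, μ j * (p j a * δ (p j b) - p j b * δ (p j a)) = 0)
    (h5 : ∑ a, ∑ j, μ j * δ (p j a) ^ 2 ≠ 0) : ¬ IsRamsey (Set.range p) := by
  classical
  let δ' : ℝ →+ ℝ := (δ : ℝ →ₗ[ℚ] ℝ).toAddMonoidHom
  have hδ' : ∀ x, δ' x = δ x := fun _ => rfl
  refine not_isRamsey_of_identity p hp (fun j x => μ j * δ x ^ 2)
    (fun a b => (∑ j, μ j * (δ (p j a) * δ (p j b))) • AddMonoidHom.id ℝ +
      (∑ j, μ j * (δ (p j a) * p j b)) • δ') ?_ ?_
  · intro o u
    have e1 : ∀ j, δ (o + ∑ a, p j a * u a) =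
        δ o + ∑ a, (p j a * δ (u a) + δ (p j a) * u a) := by
      intro j
      rw [map_add, map_sum]
      congr 1
      refine Finset.sum_congr rfl fun a _ => ?_
      rw [Derivation.leibniz]
      simp only [smul_eq_mul]
      ring
    have e2 : ∀ j, μ j * δ (o + ∑ a, p j a * u a) ^ 2 =
        δ o ^ 2 * μ j
        + ∑ a, 2 * δ o * δ (u a) * (μ j * p j a)
        + ∑ a, 2 * δ o * u a * (μ j * δ (p j a))
        + ∑ a, ∑ b, (δ (u a) * δ (u b) * (μ j * (p j a * p j b))
            + 2 * u a * δ (u b) * (μ j * (δ (p j a) * p j b))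
            + u a * u b * (μ j * (δ (p j a) * δ (p j b)))) := by
      intro j
      rw [e1 j]
      have e3 : (∑ a, (p j a * δ (u a) + δ (p j a) * u a)) ^ 2 =
          ∑ a, ∑ b, (δ (u a) * δ (u b) * (p j a * p j b)
            + 2 * u a * δ (u b) * (δ (p j a) * p j b)
            + u a * u b * (δ (p j a) * δ (p j b))) := by
        rw [sq, Finset.sum_mul_sum]
        have e4 : ∑ a, ∑ b, (δ (p j a) * u a) * (p j b * δ (u b)) =
            ∑ a, ∑ b, (p j a * δ (u a)) * (δ (p j b) * u b) := by
          rw [Finset.sum_comm]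
          refine Finset.sum_congr rfl fun a _ => Finset.sum_congr rfl fun b _ => ?_
          ring
        have e5 : ∀ a b, (p j a * δ (u a) + δ (p j a) * u a) * (p j b * δ (u b) + δ (p j b) * u b)
            = (δ (u a) * δ (u b) * (p j a * p j b)
            + 2 * u a * δ (u b) * (δ (p j a) * p j b)
            + u a * u b * (δ (p j a) * δ (p j b))) +
            ((p j a * δ (u a)) * (δ (p j b) * u b) - (δ (p j a) * u a) * (p j b * δ (u b))) := by
          intro a b; ring
        simp only [e5, Finset.sum_add_distrib, Finset.sum_sub_distrib]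
        rw [e4]
        ring
      have e6 : μ j * (δ o + ∑ a, (p j a * δ (u a) + δ (p j a) * u a)) ^ 2 =
          δ o ^ 2 * μ j + 2 * δ o * μ j * (∑ a, (p j a * δ (u a) + δ (p j a) * u a))
          + μ j * (∑ a, (p j a * δ (u a) + δ (p j a) * u a)) ^ 2 := by ring
      rw [e6, e3]
      simp only [Finset.mul_sum, mul_add, Finset.sum_add_distrib]
      have e7 : ∀ a, 2 * δ o * μ j * (p j a * δ (u a)) = 2 * δ o * δ (u a) * (μ j * p j a) := by
        intro a; ring
      have e8 : ∀ a, 2 * δ o * μ j * (δ (p j a) * u a) = 2 * δ o * u a * (μ j * δ (p j a)) := by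
        intro a; ring
      have e9 : ∀ a b, μ j * (δ (u a) * δ (u b) * (p j a * p j b)) =
          δ (u a) * δ (u b) * (μ j * (p j a * p j b)) := by intro a b; ring
      have e10 : ∀ a b, μ j * (2 * u a * δ (u b) * (δ (p j a) * p j b)) =
          2 * u a * δ (u b) * (μ j * (δ (p j a) * p j b)) := by intro a b; ring
      have e11 : ∀ a b, μ j * (u a * u b * (δ (p j a) * δ (p j b))) =
          u a * u b * (μ j * (δ (p j a) * δ (p j b))) := by intro a b; ring
      simp only [e7, e8, e9, e10, e11]
      ring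
    simp only [e2, Finset.sum_add_distrib]
    have f1 : ∑ j, δ o ^ 2 * μ j = 0 := by rw [← Finset.mul_sum, h0, mul_zero]
    have f2 : ∑ j, ∑ a, 2 * δ o * δ (u a) * (μ j * p j a) = 0 := by
      rw [Finset.sum_comm]
      refine Finset.sum_eq_zero fun a _ => ?_
      rw [← Finset.mul_sum, h1, mul_zero]
    have f3 : ∑ j, ∑ a, 2 * δ o * u a * (μ j * δ (p j a)) = 0 := by
      rw [Finset.sum_comm]
      refine Finset.sum_eq_zero fun a _ => ?_
      rw [← Finset.mul_sum, h3, mul_zero]
    have f4 : ∑ j, ∑ a, ∑ b, δ (u a) * δ (u b) * (μ j * (p j a * p j b)) = 0 := by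
      rw [Finset.sum_comm]
      refine Finset.sum_eq_zero fun a _ => ?_
      rw [Finset.sum_comm]
      refine Finset.sum_eq_zero fun b _ => ?_
      rw [← Finset.mul_sum, h2, mul_zero]
    have f5 : ∑ j, ∑ a, ∑ b, 2 * u a * δ (u b) * (μ j * (δ (p j a) * p j b)) =
        ∑ a, ∑ b, 2 * u a * δ (u b) * (∑ j, μ j * (δ (p j a) * p j b)) := by
      rw [Finset.sum_comm]
      refine Finset.sum_congr rfl fun a _ => ?_
      rw [Finset.sum_comm]
      refine Finset.sum_congr rfl fun b _ => ?_
      rw [← Finset.mul_sum]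
    have f6 : ∑ j, ∑ a, ∑ b, u a * u b * (μ j * (δ (p j a) * δ (p j b))) =
        ∑ a, ∑ b, u a * u b * (∑ j, μ j * (δ (p j a) * δ (p j b))) := by
      rw [Finset.sum_comm]
      refine Finset.sum_congr rfl fun a _ => ?_
      rw [Finset.sum_comm]
      refine Finset.sum_congr rfl fun b _ => ?_
      rw [← Finset.mul_sum]
    rw [f1, f2, f3, f4, f5, f6]
    -- symmetry of the middle coefficients
    have hsym : ∀ a b, ∑ j, μ j * (δ (p j a) * p j b) = ∑ j, μ j * (δ (p j b) * p j a) := by
      intro a b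
      have := h4 a b
      rw [← sub_eq_zero, ← Finset.sum_sub_distrib]
      rw [← neg_eq_zero, ← Finset.sum_neg_distrib]
      rw [← this]
      refine Finset.sum_congr rfl fun j _ => ?_
      ring
    have f7 : ∑ a, ∑ b, 2 * u a * δ (u b) * (∑ j, μ j * (δ (p j a) * p j b)) =
        ∑ a, ∑ b, (u a * δ (u b) + u b * δ (u a)) * (∑ j, μ j * (δ (p j a) * p j b)) := by
      have f8 : ∑ a, ∑ b, u b * δ (u a) * (∑ j, μ j * (δ (p j a) * p j b)) =
          ∑ a, ∑ b, u a * δ (u b) * (∑ j, μ j * (δ (p j a) * p j b)) := by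
        rw [Finset.sum_comm]
        refine Finset.sum_congr rfl fun a _ => Finset.sum_congr rfl fun b _ => ?_
        rw [hsym b a]
      simp only [add_mul, Finset.sum_add_distrib]
      rw [f8, ← two_mul, Finset.mul_sum]
      refine Finset.sum_congr rfl fun a _ => ?_
      rw [Finset.mul_sum]
      refine Finset.sum_congr rfl fun b _ => ?_
      ring
    rw [f7]
    simp only [zero_add, ← Finset.sum_add_distrib]
    refine Finset.sum_congr rfl fun a _ => Finset.sum_congr rfl fun b _ => ?_
    simp only [AddMonoidHom.add_apply, AddMonoidHom.smul_apply, AddMonoidHom.id_apply, hδ',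
      smul_eq_mul, Derivation.leibniz]
    ring
  · simp only [AddMonoidHom.add_apply, AddMonoidHom.smul_apply, AddMonoidHom.id_apply, hδ',
      smul_eq_mul, mul_one, Derivation.map_one_eq_zero, mul_zero, add_zero, ← sq]
    exact h5

theorem norm_circ (z : ℝ) : ‖circ z‖ = 1 := by
  have h : (0 : ℝ) < 1 + z ^ 2 := by positivity
  have : ‖circ z‖ ^ 2 = 1 := by
    rw [EuclideanSpace.norm_sq_eq]
    simp only [circ, Fin.sum_univ_two, Real.norm_eq_abs, sq_abs]
    simp only [Matrix.cons_val_zero, Matrix.cons_val_one]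
    field_simp
    ring
  nlinarith [norm_nonneg (circ z)]

theorem circ_injective : Function.Injective circ := by
  intro z w h
  have h1 : (0 : ℝ) < 1 + z ^ 2 := by positivity
  have h2 : (0 : ℝ) < 1 + w ^ 2 := by positivity
  have e0 := congrArg (fun v : EuclideanSpace ℝ (Fin 2) => v 0) h
  have e1 := congrArg (fun v : EuclideanSpace ℝ (Fin 2) => v 1) h
  simp only [circ, PiLp.toLp_apply, Matrix.cons_val_zero, Matrix.cons_val_one] at e0 e1
  rw [div_eq_div_iff h1.ne' h2.ne'] at e0 e1
  have e2 : z ^ 2 = w ^ 2 := by nlinarith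
  rw [e2] at e1
  have := mul_right_cancel₀ h2.ne' e1
  linarith

open Finset in
/-- three points on a circle span the plane -/
theorem affineSpan_circ {n : ℕ} (hn : 3 ≤ n) {z : Fin n → ℝ} (hz : Function.Injective z) :
    affineSpan ℝ (Set.range fun j => circ (z j)) = ⊤ := by
  let q : Fin 3 → EuclideanSpace ℝ (Fin 2) := fun i => circ (z (Fin.castLE hn i))
  have hq : AffineIndependent ℝ q := by
    refine EuclideanGeometry.Cospherical.affineIndependent
      (s := Set.range q) ⟨0, 1, ?_⟩ subset_rfl ?_
    · rintro _ ⟨i, rfl⟩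
      rw [dist_zero_right]; exact norm_circ _
    · exact circ_injective.comp (hz.comp (Fin.castLE_injective hn))
  have hq' : affineSpan ℝ (Set.range q) = ⊤ := by
    rw [hq.affineSpan_eq_top_iff_card_eq_finrank_add_one]
    simp
  rw [← top_le_iff, ← hq']
  refine affineSpan_mono ℝ ?_
  rintro _ ⟨i, rfl⟩
  exact ⟨Fin.castLE hn i, rfl⟩

open Finset Polynomial in
/-- vanishing of the seven term divided difference on polynomials of degree at most five -/
theorem sum_nodalWeight_eval {z : Fin 7 → ℝ} (hz : Function.Injective z) (P : ℝ[X])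
    (hP : P.natDegree ≤ 5) :
    ∑ j, Lagrange.nodalWeight univ z j * P.eval (z j) = 0 := by
  have h := Lagrange.coeff_eq_sum (s := (univ : Finset (Fin 7))) (v := z) hz.injOn (P := P) (by
    refine lt_of_le_of_lt degree_le_natDegree ?_
    rw [card_univ, Fintype.card_fin]
    exact_mod_cast lt_of_le_of_lt hP (by norm_num))
  rw [coeff_eq_zero_of_natDegree_lt] at h
  · rw [h]
    refine sum_congr rfl fun j _ => ?_
    rw [Lagrange.nodalWeight, prod_inv_distrib, div_eq_mul_inv, mul_comm]
  · rw [card_univ, Fintype.card_fin]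
    omega

open Finset Polynomial in
theorem not_isRamsey_circ_of_derivation (δ : Derivation ℚ ℝ ℝ) {z : Fin 7 → ℝ}
    (hz : Function.Injective z) (hδ : ∀ j, z j * δ (z j) = 1) :
    ¬ IsRamsey (Set.range fun j => circ (z j)) := by
  have hz0 : ∀ j, z j ≠ 0 := by
    intro j h
    have := hδ j
    rw [h, zero_mul] at this
    exact zero_ne_one this
  have hD : ∀ j, 1 + z j ^ 2 ≠ 0 := fun j => by positivity
  set w : Fin 7 → ℝ := fun j => Lagrange.nodalWeight univ z j with hw
  have hδz : ∀ j, δ (z j) = (z j)⁻¹ := fun j => eq_inv_of_mul_eq_one_right (hδ j)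
  have hδD : ∀ j, δ (1 + z j ^ 2) = 2 := by
    intro j
    rw [map_add, Derivation.map_one_eq_zero, Derivation.leibniz_pow, hδz]
    have := hz0 j
    simp only [smul_eq_mul, nsmul_eq_mul]
    norm_num
    field_simp
  have hδX : ∀ j, δ ((1 - z j ^ 2) / (1 + z j ^ 2)) = - 4 / (1 + z j ^ 2) ^ 2 := by
    intro j
    have h1 : δ (1 - z j ^ 2) = - 2 := by
      have : (1 - z j ^ 2) = 2 - (1 + z j ^ 2) := by ring
      rw [this, map_sub, hδD]
      have : δ (2 : ℝ) = 0 := by exact_mod_cast δ.map_natCast 2
      rw [this]; ring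
    rw [Derivation.leibniz_div, hδD, h1]
    have := hD j
    simp only [smul_eq_mul]
    field_simp
    ring
  have hδY : ∀ j, δ (2 * z j / (1 + z j ^ 2)) =
      2 * (1 - z j ^ 2) / (z j * (1 + z j ^ 2) ^ 2) := by
    intro j
    have h1 : δ (2 * z j) = 2 * (z j)⁻¹ := by
      rw [Derivation.leibniz, hδz]
      have : δ (2 : ℝ) = 0 := by exact_mod_cast δ.map_natCast 2
      rw [this]
      simp
    rw [Derivation.leibniz_div, hδD, h1]
    have := hD j
    have := hz0 j
    simp only [smul_eq_mul]
    field_simp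
    ring
  have key : ∀ (f : Fin 7 → ℝ) (P : ℝ[X]), P.natDegree ≤ 5 → (∀ j, f j = w j * P.eval (z j)) →
      ∑ j, f j = 0 := by
    intro f P hP hf
    rw [sum_congr rfl fun j _ => hf j]
    exact sum_nodalWeight_eval hz P hP
  refine not_isRamsey_of_derivation (fun j => circ (z j)) (affineSpan_circ (by norm_num) hz) δ
    (fun j => (1 + z j ^ 2) ^ 2 * z j * w j) ?_ ?_ ?_ ?_ ?_ ?_
  · exact key _ ((1 + X ^ 2) ^ 2 * X) (by compute_degree) (fun j => by
      simp only [eval_mul, eval_add, eval_one, eval_pow, eval_X]; ring)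
  · rw [Fin.forall_fin_two]
    simp only [circ, PiLp.toLp_apply, Matrix.cons_val_zero, Matrix.cons_val_one]
    constructor
    · exact key _ ((1 + X ^ 2) * (1 - X ^ 2) * X) (by compute_degree) (fun j => by
        have := hD j
        simp only [eval_mul, eval_add, eval_sub, eval_one, eval_pow, eval_X]
        field_simp)
    · exact key _ ((1 + X ^ 2) * (2 * X ^ 2)) (by compute_degree!) (fun j => by
        have := hD j
        simp only [eval_mul, eval_add, eval_one, eval_pow, eval_X, eval_ofNat]
        field_simp)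
  · simp only [Fin.forall_fin_two]
    simp only [circ, PiLp.toLp_apply, Matrix.cons_val_zero, Matrix.cons_val_one]
    refine ⟨⟨?_, ?_⟩, ?_, ?_⟩
    · exact key _ ((1 - X ^ 2) ^ 2 * X) (by compute_degree) (fun j => by
        have := hD j
        simp only [eval_mul, eval_sub, eval_one, eval_pow, eval_X]
        field_simp)
    · exact key _ ((1 - X ^ 2) * (2 * X ^ 2)) (by compute_degree!) (fun j => by
        have := hD j
        simp only [eval_mul, eval_sub, eval_one, eval_pow, eval_X, eval_ofNat]
        field_simp)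
    · exact key _ ((1 - X ^ 2) * (2 * X ^ 2)) (by compute_degree!) (fun j => by
        have := hD j
        simp only [eval_mul, eval_sub, eval_one, eval_pow, eval_X, eval_ofNat]
        field_simp)
    · exact key _ (4 * X ^ 3) (by compute_degree!) (fun j => by
        have := hD j
        simp only [eval_mul, eval_pow, eval_X, eval_ofNat]
        field_simp
        ring)
  · rw [Fin.forall_fin_two]
    simp only [circ, PiLp.toLp_apply, Matrix.cons_val_zero, Matrix.cons_val_one, hδX, hδY]
    constructor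
    · exact key _ (- 4 * X) (by compute_degree!) (fun j => by
        have := hD j
        simp only [eval_mul, eval_neg, eval_X, eval_ofNat]
        field_simp)
    · exact key _ (2 * (1 - X ^ 2)) (by compute_degree!) (fun j => by
        have := hD j
        have := hz0 j
        simp only [eval_mul, eval_sub, eval_one, eval_pow, eval_X, eval_ofNat]
        field_simp)
  · simp only [Fin.forall_fin_two]
    simp only [circ, PiLp.toLp_apply, Matrix.cons_val_zero, Matrix.cons_val_one, hδX, hδY]
    refine ⟨⟨?_, ?_⟩, ?_, ?_⟩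
    · simp
    · exact key _ (2 * (1 + X ^ 2)) (by compute_degree!) (fun j => by
        have := hD j
        have := hz0 j
        simp only [eval_mul, eval_add, eval_one, eval_pow, eval_X, eval_ofNat]
        field_simp
        ring)
    · exact key _ (- 2 * (1 + X ^ 2)) (by compute_degree!) (fun j => by
        have := hD j
        have := hz0 j
        simp only [eval_mul, eval_add, eval_neg, eval_one, eval_pow, eval_X, eval_ofNat]
        field_simp
        ring)
    · simp
  · rw [Fin.sum_univ_two]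
    simp only [circ, PiLp.toLp_apply, Matrix.cons_val_zero, Matrix.cons_val_one, hδX, hδY]
    rw [← sum_add_distrib]
    have e : ∀ j, (1 + z j ^ 2) ^ 2 * z j * w j * (-4 / (1 + z j ^ 2) ^ 2) ^ 2 +
        (1 + z j ^ 2) ^ 2 * z j * w j * (2 * (1 - z j ^ 2) / (z j * (1 + z j ^ 2) ^ 2)) ^ 2 =
        (-4) * (w j * (0 - z j)⁻¹) := by
      intro j
      have := hD j
      have := hz0 j
      rw [zero_sub, inv_neg]
      field_simp
      ring
    rw [sum_congr rfl fun j _ => e j, ← mul_sum]
    refine mul_ne_zero (by norm_num) ?_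
    exact Lagrange.sum_nodalWeight_mul_inv_sub_ne_zero hz.injOn
      (fun i _ => (hz0 i).symm) univ_nonempty

end Vale.Agent.P058
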