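import Mathlib

/-!
# P058 — definitions
-/

namespace Vale.Agent.P058

/-- A set `A ⊆ ℝ^d` is Ramsey: for every number `r ≥ 2` of colours there is a dimension `D ≥ 1`
such that every map `ℝ^D → {1, …, r}` is constant on some congruent copy of `A`. -/
def IsRamsey {d : ℕ} (A : Set (EuclideanSpace ℝ (Fin d))) : Prop :=
  ∀ r : ℕ, 2 ≤ r → ∃ D : ℕ, 1 ≤ D ∧ ∀ c : EuclideanSpace ℝ (Fin D) → Fin r,
    ∃ φ : A → EuclideanSpace ℝ (Fin D), Isometry φ ∧ ∀ a b, c (φ a) = c (φ b)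

/-- rational parametrisation of the unit circle -/
noncomputable def circ (z : ℝ) : EuclideanSpace ℝ (Fin 2) :=
  !₂[(1 - z ^ 2) / (1 + z ^ 2), 2 * z / (1 + z ^ 2)]

end Vale.Agent.P058
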