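import Vale.Agent.P058.NotSub

/-!
# P058 — Ramsey sets that are not subtransitive
-/

namespace Vale.Agent.P058

open Polynomial

/-- transcendental parameters -/
theorem not_isSubtransitive_kite_of_transcendental {x : ℝ} (hx0 : 0 < x) (hx1 : x ≤ 1)
    (hx : Transcendental ℚ x) : ¬ IsSubtransitive (kite x) := by
  have hinj : ∀ t : ℝ, Transcendental ℚ t →
      Function.Injective ((aeval t : ℚ[X] →ₐ[ℚ] ℝ) : ℚ[X] →+* ℝ) := by
    intro t ht
    exact transcendental_iff_injective.1 ht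
  have hx' : Transcendental ℚ (x + 1) := by
    intro h
    apply hx
    have := h.sub (isAlgebraic_one (R := ℚ) (A := ℝ))
    rwa [add_sub_cancel_right] at this
  let F := FractionRing ℚ[X]
  let f1 : F →+* ℝ := IsFractionRing.lift (hinj x hx)
  let f2 : F →+* ℝ := IsFractionRing.lift (hinj (x + 1) hx')
  let _ : Algebra F ℝ := f1.toAlgebra
  refine not_isSubtransitive_kite (K := F) (algebraMap ℚ[X] F X) ?_ (by nlinarith) f2 ?_
  · change f1 (algebraMap ℚ[X] F X) = x
    simp [f1]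
  · have : f2 (algebraMap ℚ[X] F X) = x + 1 := by simp [f2]
    rw [this, abs_of_pos (by linarith)]
    linarith

/-- an explicit algebraic parameter -/
theorem not_isSubtransitive_kite_sqrt_two : ¬ IsSubtransitive (kite (Real.sqrt 2 - 1)) := by
  have hirr : Irreducible (X ^ 2 - C (2 : ℚ)) := by
    refine X_pow_sub_C_irreducible_of_prime Nat.prime_two fun b hb => ?_
    apply irrational_sqrt_two
    refine ⟨|b|, ?_⟩
    have h : ((|b| : ℚ) : ℝ) ^ 2 = 2 := by
      have : (|b|) ^ 2 = 2 := by rw [sq_abs]; exact hb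
      exact_mod_cast this
    have h2 : (0 : ℝ) ≤ ((|b| : ℚ) : ℝ) := by exact_mod_cast abs_nonneg b
    rw [← Real.sqrt_sq h2, h]
  have : Fact (Irreducible (X ^ 2 - C (2 : ℚ))) := ⟨hirr⟩
  let F := AdjoinRoot (X ^ 2 - C (2 : ℚ))
  have hs : Real.sqrt 2 ^ 2 = 2 := Real.sq_sqrt (by norm_num)
  let f1 : F →+* ℝ := AdjoinRoot.lift (algebraMap ℚ ℝ) (Real.sqrt 2) (by simp [hs])
  let f2 : F →+* ℝ := AdjoinRoot.lift (algebraMap ℚ ℝ) (-Real.sqrt 2) (by simp [hs])
  let _ : Algebra F ℝ := f1.toAlgebra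
  have h1 : (1 : ℝ) < Real.sqrt 2 := by
    rw [show (1 : ℝ) = Real.sqrt 1 from Real.sqrt_one.symm]
    exact Real.sqrt_lt_sqrt (by norm_num) (by norm_num)
  refine not_isSubtransitive_kite (K := F) (AdjoinRoot.root _ - 1) ?_ (by nlinarith) f2 ?_
  · change f1 (AdjoinRoot.root _ - 1) = Real.sqrt 2 - 1
    rw [map_sub, map_one]
    congr 1
    exact AdjoinRoot.lift_root _
  · have : f2 (AdjoinRoot.root _ - 1) = -Real.sqrt 2 - 1 := by
      rw [map_sub, map_one]
      congr 1
      exact AdjoinRoot.lift_root _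
    rw [this, abs_of_neg (by linarith)]
    linarith

end Vale.Agent.P058
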