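import Vale.Agent.P058.Words

/-!
# P058 — making a finite colouring even in each coordinate, on a finite grid
-/

namespace Vale.Agent.P058

open scoped BigOperators

/-- squared distances after inserting a vector at given positions -/
theorem sum_extend_sub_sq {m D : ℕ} {p : Fin m → Fin D} (hp : Function.Injective p)
    (z z' : Fin m → ℝ) (b : ℝ) :
    ∑ j, (Function.extend p z (fun _ => b) j - Function.extend p z' (fun _ => b) j) ^ 2 =
      ∑ i, (z i - z' i) ^ 2 := by
  classical
  rw [← Finset.sum_subset (Finset.subset_univ (Finset.univ.image p))]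
  · rw [Finset.sum_image fun _ _ _ _ h => hp h]
    refine Finset.sum_congr rfl fun i _ => ?_
    rw [hp.extend_apply, hp.extend_apply]
  · intro j _ hj
    have : ¬ ∃ i, p i = j := by
      rintro ⟨i, hi⟩
      exact hj (Finset.mem_image.2 ⟨i, Finset.mem_univ _, hi⟩)
    rw [Function.extend_apply' _ _ _ this, Function.extend_apply' _ _ _ this]
    ring

/-- a coordinate is replaced by two coordinates -/
noncomputable def dbl {m : ℕ} (z : Fin m → ℝ) : Fin (m * 2) → ℝ := fun k =>
  if (finProdFinEquiv.symm k).2 = 0 then z (finProdFinEquiv.symm k).1 / Real.sqrt 2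
  else - (z (finProdFinEquiv.symm k).1 / Real.sqrt 2)

theorem sum_dbl_sub_sq {m : ℕ} (z z' : Fin m → ℝ) :
    ∑ k, (dbl z k - dbl z' k) ^ 2 = ∑ i, (z i - z' i) ^ 2 := by
  rw [← finProdFinEquiv.sum_comp, Fintype.sum_prod_type]
  refine Finset.sum_congr rfl fun i _ => ?_
  rw [Fin.sum_univ_two]
  simp only [dbl, Equiv.symm_apply_apply]
  have h2 : Real.sqrt 2 ^ 2 = 2 := Real.sq_sqrt (by norm_num)
  have h3 : Real.sqrt 2 ≠ 0 := by positivity
  simp only [if_true, one_ne_zero, if_false]
  have e1 : z i / Real.sqrt 2 - z' i / Real.sqrt 2 = (z i - z' i) / Real.sqrt 2 := by ring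
  have e2 : - (z i / Real.sqrt 2) - - (z' i / Real.sqrt 2) = - ((z i - z' i) / Real.sqrt 2) := by
    ring
  rw [e1, e2, neg_sq, div_pow, h2]
  ring

/-- **Evenness lemma.** -/
theorem exists_even (κ : Type) [Finite κ] (T : List ℝ) : ∀ (S : Finset ℝ) (m : ℕ),
    ∃ D : ℕ, ∀ c : (Fin D → ℝ) → κ, ∃ ι : (Fin m → ℝ) → (Fin D → ℝ),
      (∀ z z', ∑ j, (ι z j - ι z' j) ^ 2 = ∑ i, (z i - z' i) ^ 2) ∧
      ∀ z z' : Fin m → ℝ, (∀ i, z i ∈ S) → (∀ i, z' i ∈ S) →
        (∀ i, z' i = z i ∨ (|z i| ∈ T ∧ z' i = - z i)) → c (ι z) = c (ι z') := by
  classical
  induction hk : T.length generalizing T with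
  | zero =>
    have hT : T = [] := List.length_eq_zero_iff.1 hk
    subst hT
    intro S m
    refine ⟨m, fun c => ⟨id, fun _ _ => rfl, fun z z' _ _ h => ?_⟩⟩
    have : z' = z := by
      funext i
      rcases h i with h | h
      · exact h
      · simp at h
    rw [this]
  | succ k ih =>
    intro S m
    obtain ⟨t, T0, rfl⟩ : ∃ t T0, T = t :: T0 := by
      cases T with
      | nil => simp at hk
      | cons t T0 => exact ⟨t, T0, rfl⟩
    have hk0 : (T0.map (· / Real.sqrt 2)).length = k := by
      simpa using hk
    set s2 := Real.sqrt 2 with hs2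
    have hs2pos : 0 < s2 := by positivity
    let b : ℝ := - (t / s2)
    let S' : Finset ℝ := insert b (S.image (· / s2) ∪ S.image fun x => - (x / s2))
    have hbS : b ∈ S' := Finset.mem_insert_self _ _
    have hS1 : ∀ x ∈ S, x / s2 ∈ S' := fun x hx =>
      Finset.mem_insert_of_mem (Finset.mem_union_left _ (Finset.mem_image_of_mem _ hx))
    have hS2 : ∀ x ∈ S, - (x / s2) ∈ S' := fun x hx =>
      Finset.mem_insert_of_mem (Finset.mem_union_right _ (Finset.mem_image_of_mem _ hx))
    have hdbl : ∀ z : Fin m → ℝ, (∀ i, z i ∈ S) → ∀ k, dbl z k ∈ S' := by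
      intro z hz k
      simp only [dbl]
      split_ifs
      · exact hS1 _ (hz _)
      · exact hS2 _ (hz _)
    obtain ⟨M, hM⟩ := ramsey_words (σ := S') (κ := κ) ⟨b, hbS⟩ (m * 2)
    obtain ⟨D, hD⟩ := ih (T0.map (· / s2)) hk0 S' M
    refine ⟨D, fun c => ?_⟩
    obtain ⟨ι1, hι1, hc1⟩ := hD c
    obtain ⟨p, hp, hpc⟩ := hM fun w => c (ι1 fun i => (w i : ℝ))
    refine ⟨fun z => ι1 (Function.extend p (dbl z) fun _ => b), ?_, ?_⟩
    · intro z z'
      rw [hι1, sum_extend_sub_sq hp.injective, sum_dbl_sub_sq]
    · intro z z' hz hz' h
      -- intermediate point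
      let z'' : Fin m → ℝ := fun i => if |z i| = t then z i else z' i
      have hz'' : ∀ i, z'' i ∈ S := by
        intro i; simp only [z'']; split_ifs; exacts [hz i, hz' i]
      have hext : ∀ y : Fin m → ℝ, (∀ i, y i ∈ S) →
          ∀ j, Function.extend p (dbl y) (fun _ => b) j ∈ S' := by
        intro y hy j
        by_cases hj : ∃ i, p i = j
        · obtain ⟨i, rfl⟩ := hj
          rw [hp.injective.extend_apply]
          exact hdbl y hy i
        · rw [Function.extend_apply' _ _ _ hj]
          exact hbS
      have step1 : c (ι1 (Function.extend p (dbl z) fun _ => b)) =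
          c (ι1 (Function.extend p (dbl z'') fun _ => b)) := by
        refine hc1 _ _ (hext z hz) (hext z'' hz'') fun j => ?_
        by_cases hj : ∃ i, p i = j
        · obtain ⟨i, rfl⟩ := hj
          rw [hp.injective.extend_apply, hp.injective.extend_apply]
          set q := (finProdFinEquiv.symm i).1
          have hq : z'' q = z q ∨ (|z q| ∈ T0 ∧ z'' q = - z q) := by
            simp only [z'']
            split_ifs with ht
            · left; rfl
            · rcases h q with h | ⟨h1, h2⟩
              · left; exact h
              · right
                refine ⟨?_, h2⟩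
                rcases List.mem_cons.1 h1 with h1 | h1
                · exact absurd h1 ht
                · exact h1
          rcases hq with hq | ⟨hq1, hq2⟩
          · left
            simp only [dbl]
            change (if _ then z'' q / _ else -(z'' q / _)) = if _ then z q / _ else - (z q / _)
            rw [hq]
          · right
            have habs : ∀ x : ℝ, |x| ∈ T0 → |x / s2| ∈ T0.map (· / s2) ∧
                |-(x / s2)| ∈ T0.map (· / s2) := by
              intro x hx
              rw [abs_neg, abs_div, abs_of_pos hs2pos]
              exact ⟨List.mem_map_of_mem hx, List.mem_map_of_mem hx⟩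
            constructor
            · simp only [dbl]
              split_ifs
              · exact (habs _ hq1).1
              · exact (habs _ hq1).2
            · simp only [dbl]
              change (if _ then z'' q / _ else -(z'' q / _)) = - if _ then z q / _ else - (z q / _)
              rw [hq2]
              split_ifs <;> ring
        · left
          rw [Function.extend_apply' _ _ _ hj, Function.extend_apply' _ _ _ hj]
      rw [step1]
      -- second step: deletion of the background letter
      let lift : ∀ y : Fin m → ℝ, (∀ i, y i ∈ S) → Fin (m * 2) → S' :=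
        fun y hy k => ⟨dbl y k, hdbl y hy k⟩
      have hlift : ∀ (y : Fin m → ℝ) (hy : ∀ i, y i ∈ S),
          (fun j => ((Function.extend p (lift y hy) (fun _ => (⟨b, hbS⟩ : S')) j : S') : ℝ)) =
            Function.extend p (dbl y) fun _ => b := by
        intro y hy
        funext j
        by_cases hj : ∃ i, p i = j
        · obtain ⟨i, rfl⟩ := hj
          rw [hp.injective.extend_apply, hp.injective.extend_apply]
        · rw [Function.extend_apply' _ _ _ hj, Function.extend_apply' _ _ _ hj]
      have step2 := hpc (lift z'' hz'') (lift z' hz') ?_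
      · rw [hlift z'' hz'', hlift z' hz'] at step2
        exact step2
      · rw [List.ofFn_mul, List.ofFn_mul, List.filter_flatten, List.filter_flatten]
        congr 1
        rw [List.map_ofFn, List.map_ofFn]
        congr 1
        funext i
        simp only [Function.comp]
        have hcase : z' i = z'' i ∨ (|z i| = t ∧ z'' i = z i ∧ z' i = - z i ∧ z i ≠ 0) := by
          simp only [z'']
          split_ifs with ht
          · rcases h i with h | ⟨_, h2⟩
            · left; exact h
            · by_cases h0 : z i = 0
              · left; rw [h2, h0]; ring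
              · right; exact ⟨ht, rfl, h2, h0⟩
          · left; rfl
        have hval : ∀ (y : Fin m → ℝ) (j : Fin 2) (hj : (i : ℕ) * 2 + (j : ℕ) < m * 2),
            dbl y ⟨(i : ℕ) * 2 + j, hj⟩ = if j = 0 then y i / s2 else - (y i / s2) := by
          intro y j hj
          have e : (⟨(i : ℕ) * 2 + j, hj⟩ : Fin (m * 2)) = finProdFinEquiv (i, j) := by
            ext
            simp [finProdFinEquiv, mul_comm, add_comm]
          rw [e]
          simp only [dbl, Equiv.symm_apply_apply]
          rfl
        rcases hcase with hi | ⟨ht, hi1, hi2, h0⟩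
        · congr 2
          funext j
          apply Subtype.ext
          change dbl z'' _ = dbl z' _
          rw [hval, hval, hi]
        · have hinj : Function.Injective (List.map (Subtype.val : S' → ℝ)) :=
            List.map_injective_iff.2 Subtype.val_injective
          apply hinj
          have hmf : ∀ l : List S', List.map (Subtype.val : S' → ℝ)
              (l.filter fun x => decide (x ≠ ⟨b, hbS⟩)) =
              (l.map (Subtype.val : S' → ℝ)).filter fun x => decide (x ≠ b) := by
            intro l
            rw [List.filter_map]
            congr 1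
            apply List.filter_congr
            intro x _
            simp [Subtype.ext_iff]
          rw [hmf, hmf, List.map_ofFn, List.map_ofFn]
          have e1 : List.ofFn ((Subtype.val : S' → ℝ) ∘ fun j : Fin 2 =>
              lift z'' hz'' ⟨(i : ℕ) * 2 + j, by omega⟩) = [z i / s2, - (z i / s2)] := by
            rw [List.ofFn_succ, List.ofFn_succ, List.ofFn_zero]
            simp only [Function.comp, lift, hval, hi1]
            simp
          have e2 : List.ofFn ((Subtype.val : S' → ℝ) ∘ fun j : Fin 2 =>
              lift z' hz' ⟨(i : ℕ) * 2 + j, by omega⟩) = [- (z i / s2), z i / s2] := by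
            rw [List.ofFn_succ, List.ofFn_succ, List.ofFn_zero]
            simp only [Function.comp, lift, hval, hi2]
            simp [neg_div]
          rw [e1, e2]
          have h0' : z i / s2 ≠ 0 := div_ne_zero h0 hs2pos.ne'
          have hne : z i / s2 ≠ - (z i / s2) := by
            intro h
            apply h0'
            linarith
          rcases abs_choice (z i) with hz0 | hz0
          · have hb : b = - (z i / s2) := by
              simp only [b]; rw [← ht, hz0]
            simp [hb, hne]
          · have hb : b = z i / s2 := by
              simp only [b]; rw [← ht, hz0]; ring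
            simp [hb, hne.symm]

end Vale.Agent.P058
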