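import Vale.Agent.P058.Circle

/-!
# P058 — almost all subsets of a circle with at least seven points are not Ramsey
-/

namespace Vale.Agent.P058

open scoped BigOperators
open MeasureTheory

/-- the Ramsey property passes to subsets and to similar sets -/
theorem IsRamsey.of_similar {d d' : ℕ} {A : Set (EuclideanSpace ℝ (Fin d))}
    {B : Set (EuclideanSpace ℝ (Fin d'))} (hA : IsRamsey A) {ρ : ℝ} (hρ : 0 < ρ)
    (f : B → A) (hf : ∀ x y, dist x y = ρ * dist (f x) (f y)) : IsRamsey B := by
  intro r hr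
  obtain ⟨D, hD, h⟩ := hA r hr
  refine ⟨D, hD, fun c => ?_⟩
  obtain ⟨φ, hφ, hc⟩ := h (fun x => c (ρ • x))
  refine ⟨fun b => ρ • φ (f b), ?_, fun a b => hc _ _⟩
  refine Isometry.of_dist_eq fun x y => ?_
  rw [dist_smul₀, hφ.dist_eq, hf, Real.norm_of_nonneg hρ.le]

/-- the zero set of a nonzero polynomial, pulled back by a map with countable fibres -/
theorem ae_eval_ne_zero {g : ℝ → ℝ} (hg : Measurable g)
    (hgc : ∀ y, (g ⁻¹' {y}).Countable) :
    ∀ (n : ℕ) (Q : MvPolynomial (Fin n) ℝ), Q ≠ 0 →
      ∀ᵐ θ : Fin n → ℝ, MvPolynomial.eval (fun j => g (θ j)) Q ≠ 0 := by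
  intro n
  induction n with
  | zero =>
    intro Q hQ
    refine Filter.Eventually.of_forall fun θ => ?_
    obtain ⟨a, rfl⟩ := MvPolynomial.C_surjective (R := ℝ) (Fin 0) Q
    rw [MvPolynomial.eval_C]
    rintro rfl
    simp at hQ
  | succ n ih =>
    intro Q hQ
    set P := MvPolynomial.finSuccEquiv ℝ n Q with hP
    have hP0 : P ≠ 0 := by
      rw [hP]
      exact (map_ne_zero_iff _ (MvPolynomial.finSuccEquiv ℝ n).injective).2 hQ
    have h1 := ih P.leadingCoeff (Polynomial.leadingCoeff_ne_zero.2 hP0)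
    let e := MeasurableEquiv.piFinSuccAbove (fun _ : Fin (n + 1) => ℝ) 0
    have he : MeasurePreserving e :=
      volume_preserving_piFinSuccAbove (fun _ : Fin (n + 1) => ℝ) 0
    have hset : MeasurableSet {q : (Fin n → ℝ) × ℝ |
        MvPolynomial.eval (fun j => g (e.symm q.swap j)) Q ≠ 0} := by
      have : Measurable fun q : (Fin n → ℝ) × ℝ =>
          MvPolynomial.eval (fun j => g (e.symm q.swap j)) Q := by
        have hm : Measurable fun q : (Fin n → ℝ) × ℝ => (fun j => g (e.symm q.swap j)) :=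
          measurable_pi_lambda _ fun j =>
            hg.comp ((measurable_pi_apply j).comp (e.symm.measurable.comp measurable_swap))
        exact (MvPolynomial.continuous_eval Q).measurable.comp hm
      exact (measurableSet_eq_fun this measurable_const).compl
    have h2 : ∀ᵐ q : (Fin n → ℝ) × ℝ, MvPolynomial.eval (fun j => g (e.symm q.swap j)) Q ≠ 0 := by
      rw [Measure.volume_eq_prod, Measure.ae_prod_iff_ae_ae hset]
      filter_upwards [h1] with y hy
      have hR : (Polynomial.map (MvPolynomial.eval (fun j => g (y j))) P) ≠ 0 := by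
        intro h0
        have := congrArg (fun R => Polynomial.coeff R P.natDegree) h0
        simp only [Polynomial.coeff_map, Polynomial.coeff_zero] at this
        exact hy this
      have hfin : (⋃ r ∈ (Polynomial.map (MvPolynomial.eval (fun j => g (y j))) P).roots.toFinset,
          g ⁻¹' {r}).Countable :=
        Set.Countable.biUnion (Finset.countable_toSet _) fun r _ => hgc r
      have := hfin.ae_notMem volume
      filter_upwards [this] with x hx h0
      apply hx
      simp only [Set.mem_iUnion, Set.mem_preimage, Set.mem_singleton_iff]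
      refine ⟨g x, ?_, rfl⟩
      rw [Multiset.mem_toFinset, Polynomial.mem_roots hR, Polynomial.IsRoot.def, hP,
        ← MvPolynomial.eval_eq_eval_mv_eval', ← h0]
      congr 1
      have e1 : (Fin.cons (g x) (fun j => g (y j)) : Fin (n + 1) → ℝ) =
          (fun j => g (e.symm (Prod.swap (y, x)) j)) := by
        funext j
        refine Fin.cases ?_ (fun j => ?_) j
        · simp [e, MeasurableEquiv.piFinSuccAbove]
        · simp [e, MeasurableEquiv.piFinSuccAbove]
      rw [e1]
    have h4 : MeasurePreserving (fun θ : Fin (n + 1) → ℝ => (e θ).swap) :=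
      Measure.measurePreserving_swap.comp he
    have h3 := h4.quasiMeasurePreserving.ae h2
    filter_upwards [h3] with θ hθ
    simpa using hθ

/-- almost every tuple is algebraically independent -/
theorem ae_algebraicIndependent {g : ℝ → ℝ} (hg : Measurable g)
    (hgc : ∀ y, (g ⁻¹' {y}).Countable) (n : ℕ) :
    ∀ᵐ θ : Fin n → ℝ, AlgebraicIndependent ℚ (fun j => g (θ j)) := by
  have : Countable (MvPolynomial (Fin n) ℚ) := by
    rw [← Cardinal.mk_le_aleph0_iff]
    refine (MvPolynomial.cardinalMk_le_max (σ := Fin n) (R := ℚ)).trans ?_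
    simp
  have h : ∀ᵐ θ : Fin n → ℝ, ∀ Q : MvPolynomial (Fin n) ℚ, Q ≠ 0 →
      MvPolynomial.aeval (fun j => g (θ j)) Q ≠ 0 := by
    rw [ae_all_iff]
    intro Q
    by_cases hQ : Q = 0
    · simp [hQ]
    · have hQ' : MvPolynomial.map (algebraMap ℚ ℝ) Q ≠ 0 := by
        intro h0
        apply hQ
        apply MvPolynomial.map_injective (algebraMap ℚ ℝ) (algebraMap ℚ ℝ).injective
        rw [h0, map_zero]
      filter_upwards [ae_eval_ne_zero hg hgc n _ hQ'] with θ hθ _
      rwa [MvPolynomial.eval_map, ← MvPolynomial.aeval_def] at hθ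
  filter_upwards [h] with θ hθ
  rw [algebraicIndependent_iff]
  intro Q hQ
  by_contra hne
  exact hθ Q hne hQ

/-- fibres of the cosine are countable -/
theorem countable_cos_preimage (y : ℝ) : (Real.cos ⁻¹' {y}).Countable := by
  by_cases h : (Real.cos ⁻¹' {y}).Nonempty
  · obtain ⟨a, ha⟩ := h
    have : Real.cos ⁻¹' {y} ⊆ Set.range (fun k : ℤ => 2 * k * Real.pi + a) ∪
        Set.range (fun k : ℤ => 2 * k * Real.pi - a) := by
      intro b hb
      have hab : Real.cos a = Real.cos b := by
        rw [Set.mem_preimage, Set.mem_singleton_iff] at ha hb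
        rw [ha, hb]
      obtain ⟨k, hk | hk⟩ := Real.cos_eq_cos_iff.1 hab
      · left; exact ⟨k, hk.symm⟩
      · right; exact ⟨k, hk.symm⟩
    exact ((Set.countable_range _).union (Set.countable_range _)).mono this
  · rw [Set.not_nonempty_iff_eq_empty] at h
    rw [h]
    exact Set.countable_empty

/-- seven points of a circle with algebraically independent cosines -/
theorem not_isRamsey_of_cos {θ : Fin 7 → ℝ}
    (hθ : AlgebraicIndependent ℚ (fun j => Real.cos (θ j))) :
    ¬ IsRamsey (Set.range fun j => (!₂[Real.cos (θ j), Real.sin (θ j)] :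
      EuclideanSpace ℝ (Fin 2))) := by
  obtain ⟨δ, hδ⟩ := exists_derivation_of_algebraicIndependent hθ
    (fun j => -(1 + Real.cos (θ j)) ^ 2)
  have htr : ∀ j, Transcendental ℚ (Real.cos (θ j)) := fun j => hθ.transcendental j
  have h1 : ∀ j, 1 + Real.cos (θ j) ≠ 0 := by
    intro j h
    apply htr j
    have : Real.cos (θ j) = ((-1 : ℚ) : ℝ) := by push_cast; linarith
    rw [this]
    exact isAlgebraic_algebraMap (R := ℚ) (A := ℝ) (-1)
  set z : Fin 7 → ℝ := fun j => Real.sin (θ j) / (1 + Real.cos (θ j)) with hz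
  have hz2 : ∀ j, z j ^ 2 = (1 - Real.cos (θ j)) / (1 + Real.cos (θ j)) := by
    intro j
    have := h1 j
    have h2 := Real.sin_sq_add_cos_sq (θ j)
    simp only [hz, div_pow]
    rw [div_eq_div_iff (pow_ne_zero 2 this) this]
    linear_combination (1 + Real.cos (θ j)) * h2
  have hcirc : ∀ j, circ (z j) = !₂[Real.cos (θ j), Real.sin (θ j)] := by
    intro j
    have := h1 j
    have e1 : 1 + z j ^ 2 = 2 / (1 + Real.cos (θ j)) := by
      rw [hz2]; field_simp; ring
    have e2 : 1 - z j ^ 2 = 2 * Real.cos (θ j) / (1 + Real.cos (θ j)) := by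
      rw [hz2]; field_simp; ring
    rw [circ, e1, e2]
    simp only [hz]
    congr 1
    field_simp
  have hinj : Function.Injective z := by
    intro i j hij
    have e := congrArg (fun v : EuclideanSpace ℝ (Fin 2) => v 0)
      ((hcirc i).symm.trans ((congrArg circ hij).trans (hcirc j)))
    simp only [Matrix.cons_val_zero] at e
    exact hθ.injective e
  have hder : ∀ j, z j * δ (z j) = 1 := by
    intro j
    have := h1 j
    have e1 : δ (z j ^ 2) = 2 * (z j * δ (z j)) := by
      rw [Derivation.leibniz_pow]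
      simp only [smul_eq_mul, nsmul_eq_mul]
      norm_num
    have e2 : δ ((1 - Real.cos (θ j)) / (1 + Real.cos (θ j))) = 2 := by
      rw [Derivation.leibniz_div, map_sub, map_add, Derivation.map_one_eq_zero, hδ]
      simp only [smul_eq_mul]
      field_simp
      ring
    rw [hz2, e2] at e1
    linarith
  have := not_isRamsey_circ_of_derivation δ hinj hder
  rwa [show (fun j => circ (z j)) = fun j => !₂[Real.cos (θ j), Real.sin (θ j)] from
    funext hcirc] at this

/-- **Almost every `n`-point subset of a circle, `n ≥ 7`, is not Ramsey.** -/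
theorem ae_not_isRamsey {n : ℕ} (hn : 7 ≤ n) (o : EuclideanSpace ℝ (Fin 2)) {ρ : ℝ} (hρ : 0 < ρ) :
    ∀ᵐ θ : Fin n → ℝ, ¬ IsRamsey (Set.range fun j =>
      o + ρ • (!₂[Real.cos (θ j), Real.sin (θ j)] : EuclideanSpace ℝ (Fin 2))) := by
  filter_upwards [ae_algebraicIndependent Real.measurable_cos countable_cos_preimage n] with θ hθ hR
  have h7 := not_isRamsey_of_cos (θ := fun j => θ (Fin.castLE hn j))
    (hθ.comp _ (Fin.castLE_injective hn))
  apply h7
  have hmem : ∀ x : Set.range (fun j : Fin 7 => (!₂[Real.cos (θ (Fin.castLE hn j)),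
      Real.sin (θ (Fin.castLE hn j))] : EuclideanSpace ℝ (Fin 2))),
      o + ρ • (x : EuclideanSpace ℝ (Fin 2)) ∈ Set.range fun j =>
      o + ρ • (!₂[Real.cos (θ j), Real.sin (θ j)] : EuclideanSpace ℝ (Fin 2)) := by
    rintro ⟨_, j, rfl⟩
    exact ⟨Fin.castLE hn j, rfl⟩
  refine hR.of_similar (ρ := ρ⁻¹) (inv_pos.2 hρ) (fun x => ⟨_, hmem x⟩) ?_
  intro x y
  rw [Subtype.dist_eq, Subtype.dist_eq, dist_add_left, dist_smul₀, Real.norm_of_nonneg hρ.le,
    ← mul_assoc, inv_mul_cancel₀ hρ.ne', one_mul]

/-- the explicit seven-point sets `{circ (√(lam + j))}` -/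
theorem not_isRamsey_sqrt {lam : ℝ} (hlam : 0 < lam) (ht : Transcendental ℚ lam) :
    ¬ IsRamsey (Set.range fun j : Fin 7 => circ (Real.sqrt (lam + (j : ℕ)))) := by
  obtain ⟨δ, hδ⟩ := exists_derivation ht
  have hpos : ∀ j : Fin 7, 0 < lam + ((j : ℕ) : ℝ) := fun j => by positivity
  refine not_isRamsey_circ_of_derivation ((2 : ℝ) • δ)
    (z := fun j => Real.sqrt (lam + (j : ℕ))) ?_ ?_
  · intro i j hij
    have h := (Real.sqrt_inj (hpos i).le (hpos j).le).1 hij
    have h' : ((i : ℕ) : ℝ) = ((j : ℕ) : ℝ) := by linarith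
    exact Fin.ext (by exact_mod_cast h')
  · intro j
    have e : δ (Real.sqrt (lam + (j : ℕ)) ^ 2) =
        2 * (Real.sqrt (lam + (j : ℕ)) * δ (Real.sqrt (lam + (j : ℕ)))) := by
      rw [Derivation.leibniz_pow]
      simp only [smul_eq_mul, nsmul_eq_mul]
      norm_num
    rw [Real.sq_sqrt (hpos j).le, map_add, hδ, δ.map_natCast, add_zero] at e
    rw [Derivation.smul_apply, smul_eq_mul]
    linarith

end Vale.Agent.P058
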