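import Mathlib

/-!
# P058 — a transitive tournament of words

For `0 < x ≤ 1/2` there are words `wd x 0, wd x 1, …` of positive reals, of norm one, such that
`x • wd x i` is a subsequence of `wd x j` for all `i < j`.
-/

namespace Vale.Agent.P058

open scoped BigOperators

/-- masses of the new letters -/
noncomputable def vd (y : ℝ) : ℕ → ℝ × ℝ
  | 0 => (1, 0)
  | j + 1 => ((1 - y) * (vd y j).1 - y * (vd y j).2, y * ((vd y j).1 + (vd y j).2))

theorem vd_pos {y : ℝ} (hy0 : 0 < y) (hy : y ≤ 1 / 4) (j : ℕ) :
    0 < (vd y j).1 ∧ 0 ≤ (vd y j).2 ∧ (vd y j).2 ≤ (vd y j).1 := by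
  induction j with
  | zero => simp [vd]
  | succ j ih =>
    obtain ⟨h1, h2, h3⟩ := ih
    simp only [vd]
    refine ⟨?_, ?_, ?_⟩ <;> nlinarith

theorem vd_snd (y : ℝ) (j : ℕ) :
    (vd y j).2 = ∑ i ∈ Finset.range j, (vd y i).1 * y ^ (j - i) := by
  induction j with
  | zero => simp [vd]
  | succ j ih =>
    rw [Finset.sum_range_succ]
    have : ∑ i ∈ Finset.range j, (vd y i).1 * y ^ (j + 1 - i) =
        y * ∑ i ∈ Finset.range j, (vd y i).1 * y ^ (j - i) := by
      rw [Finset.mul_sum]
      refine Finset.sum_congr rfl fun i hi => ?_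
      have hi' := Finset.mem_range.1 hi
      have : j + 1 - i = (j - i) + 1 := by omega
      rw [this, pow_succ]
      ring
    rw [this, ← ih]
    simp only [vd, Nat.add_sub_cancel_left, pow_one]
    ring

theorem vd_fst (y : ℝ) (j : ℕ) :
    ∑ i ∈ Finset.range j, ∑ m ∈ Finset.range (j - i), (vd y i).1 * y ^ (m + 1) +
      (vd y j).1 = 1 := by
  induction j with
  | zero => simp [vd]
  | succ j ih =>
    rw [Finset.sum_range_succ]
    have : ∑ i ∈ Finset.range j, ∑ m ∈ Finset.range (j + 1 - i), (vd y i).1 * y ^ (m + 1) =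
        ∑ i ∈ Finset.range j, ∑ m ∈ Finset.range (j - i), (vd y i).1 * y ^ (m + 1) +
        y * (vd y j).2 := by
      rw [vd_snd, Finset.mul_sum, ← Finset.sum_add_distrib]
      refine Finset.sum_congr rfl fun i hi => ?_
      have hi' := Finset.mem_range.1 hi
      have : j + 1 - i = (j - i) + 1 := by omega
      rw [this, Finset.sum_range_succ, pow_succ]
      ring
    rw [this]
    simp only [vd, Nat.add_sub_cancel_left, Finset.sum_range_one, zero_add, pow_one]
    linear_combination ih

/-- the length of the new letter -/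
noncomputable def bt (x : ℝ) (i : ℕ) : ℝ := Real.sqrt (vd (x ^ 2) i).1

/-- the group of letters coming from the `i`-th new letter -/
noncomputable def grp (x : ℝ) (i k : ℕ) : List ℝ :=
  (List.range k).map fun m => x ^ (m + 1) * bt x i

/-- the words of the tournament -/
noncomputable def wd (x : ℝ) (j : ℕ) : List ℝ :=
  ((List.range j).flatMap fun i => grp x i (j - i)) ++ [bt x j]

theorem bt_pos {x : ℝ} (hx0 : 0 < x) (hx : x ≤ 1 / 2) (i : ℕ) : 0 < bt x i := by
  have := (vd_pos (y := x ^ 2) (by positivity) (by nlinarith) i).1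
  exact Real.sqrt_pos.2 this

theorem wd_pos {x : ℝ} (hx0 : 0 < x) (hx : x ≤ 1 / 2) (j : ℕ) : ∀ e ∈ wd x j, 0 < e := by
  intro e he
  simp only [wd, grp, List.mem_append, List.mem_flatMap, List.mem_map, List.mem_singleton] at he
  rcases he with ⟨i, _, m, _, rfl⟩ | rfl
  · have := bt_pos hx0 hx i
    positivity
  · exact bt_pos hx0 hx j

theorem sum_map_range_eq (f : ℕ → ℝ) (n : ℕ) :
    ((List.range n).map f).sum = ∑ i ∈ Finset.range n, f i := by
  induction n with
  | zero => simp
  | succ n ih => rw [List.range_succ, List.map_append, List.sum_append, ih,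
      Finset.sum_range_succ]; simp

theorem wd_norm {x : ℝ} (hx0 : 0 < x) (hx : x ≤ 1 / 2) (j : ℕ) :
    ((wd x j).map fun e => e ^ 2).sum = 1 := by
  have hb : ∀ i, bt x i ^ 2 = (vd (x ^ 2) i).1 := fun i =>
    Real.sq_sqrt (vd_pos (y := x ^ 2) (by positivity) (by nlinarith) i).1.le
  rw [← vd_fst (x ^ 2) j]
  simp only [wd, List.map_append, List.sum_append, List.map_cons, List.map_nil, List.sum_cons,
    List.sum_nil, add_zero, hb]
  congr 1
  rw [List.flatMap_def, List.map_flatten, List.sum_flatten, List.map_map, List.map_map,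
    sum_map_range_eq]
  refine Finset.sum_congr rfl fun i _ => ?_
  simp only [Function.comp, grp, List.map_map]
  rw [sum_map_range_eq]
  refine Finset.sum_congr rfl fun m _ => ?_
  simp only [Function.comp]
  rw [mul_pow, hb]
  ring

theorem flatMap_sublist {α β : Type} (l : List α) (f g : α → List β)
    (h : ∀ a ∈ l, (f a).Sublist (g a)) : (l.flatMap f).Sublist (l.flatMap g) := by
  induction l with
  | nil => simp
  | cons a l ih =>
    rw [List.flatMap_cons, List.flatMap_cons]
    exact (h a (by simp)).append (ih fun b hb => h b (by simp [hb]))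

theorem grp_sublist (x : ℝ) (i : ℕ) {k n : ℕ} (hkn : k < n) :
    ((grp x i k).map fun e => x * e).Sublist (grp x i n) := by
  obtain ⟨r, rfl⟩ : ∃ r, n = 1 + (k + r) := ⟨n - 1 - k, by omega⟩
  rw [grp, grp, List.range_add, List.map_append, List.range_add]
  refine List.Sublist.trans ?_ (List.sublist_append_right _ _)
  rw [List.map_append, List.map_append]
  refine List.Sublist.trans ?_ (List.sublist_append_left _ _)
  rw [List.map_map, List.map_map]
  have : ((fun e => x * e) ∘ fun m => x ^ (m + 1) * bt x i) =
      (fun m => x ^ (m + 1) * bt x i) ∘ fun m => 1 + m := by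
    funext m
    simp only [Function.comp]
    ring
  rw [this]

theorem wd_sublist (x : ℝ) {i j : ℕ} (hij : i < j) :
    ((wd x i).map fun e => x * e).Sublist (wd x j) := by
  obtain ⟨k, rfl⟩ : ∃ k, j = i + (1 + k) := ⟨j - i - 1, by omega⟩
  rw [wd, wd, List.map_append, List.map_flatMap]
  refine List.Sublist.trans ?_ (List.sublist_append_left _ _)
  rw [List.range_add, List.flatMap_append]
  refine List.Sublist.append (flatMap_sublist _ _ _ fun a ha => ?_) ?_
  · have := List.mem_range.1 ha
    exact grp_sublist x a (by omega)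
  · rw [List.range_add, List.map_append, List.flatMap_append]
    refine List.Sublist.trans ?_ (List.sublist_append_left _ _)
    have h1 : i + (1 + k) - i = 1 + k := by omega
    simp only [List.range_one, List.map_cons, List.map_nil, add_zero, List.flatMap_cons,
      List.flatMap_nil, List.append_nil, h1, grp]
    rw [List.range_add, List.map_append]
    refine List.Sublist.trans ?_ (List.sublist_append_left _ _)
    simp

end Vale.Agent.P058
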