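import Vale.Agent.P058.KiteDefs
import Vale.Agent.P058.AbsWords
import Vale.Agent.P058.Tour

/-!
# P058 — right kites are Ramsey
-/

namespace Vale.Agent.P058

open scoped BigOperators

/-- a criterion for the range of a finite family to be Ramsey -/
theorem isRamsey_range {ι : Type} {d : ℕ} (p : ι → EuclideanSpace ℝ (Fin d))
    (h : ∀ r : ℕ, 2 ≤ r → ∃ D : ℕ, 1 ≤ D ∧ ∀ c : EuclideanSpace ℝ (Fin D) → Fin r,
      ∃ q : ι → EuclideanSpace ℝ (Fin D), (∀ i j, dist (q i) (q j) = dist (p i) (p j)) ∧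
        ∀ i j, c (q i) = c (q j)) : IsRamsey (Set.range p) := by
  intro r hr
  obtain ⟨D, hD, hc⟩ := h r hr
  refine ⟨D, hD, fun c => ?_⟩
  obtain ⟨q, hq, hqc⟩ := hc c
  refine ⟨fun a => q a.2.choose, ?_, fun a b => hqc _ _⟩
  refine Isometry.of_dist_eq fun a b => ?_
  rw [hq, a.2.choose_spec, b.2.choose_spec]
  rfl

theorem filter_zero_cons (z : List ℝ) :
    (0 :: z).filter (fun e => decide (e ≠ 0)) = z.filter (fun e => decide (e ≠ 0)) :=
  List.filter_cons_of_neg (by simp)

theorem filter_ne_cons {a : ℝ} (ha : a ≠ 0) (z : List ℝ) :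
    (a :: z).filter (fun e => decide (e ≠ 0)) = a :: z.filter (fun e => decide (e ≠ 0)) :=
  List.filter_cons_of_pos (by simp [ha])

/-- extension of a sublist by zeros -/
theorem exists_zeros {x : ℝ} : ∀ (l' l : List ℝ), (∀ e ∈ l, e ≠ 0) →
    (l.map fun e => x * e).Sublist l' →
    ∃ z : List ℝ, z.length = l'.length ∧ z.filter (· ≠ 0) = l ∧
      List.Forall₂ (fun u v => u = 0 ∨ v = x * u) z l' := by
  intro l'
  induction l' with
  | nil =>
    intro l _ hs
    have : l = [] := by simpa using hs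
    subst this
    exact ⟨[], rfl, rfl, List.Forall₂.nil⟩
  | cons c l' ih =>
    intro l hl hs
    cases l with
    | nil =>
      obtain ⟨z, h1, h2, h3⟩ := ih [] (by simp) (by simp)
      exact ⟨0 :: z, by simp [h1], by rw [filter_zero_cons, h2], List.Forall₂.cons (Or.inl rfl) h3⟩
    | cons a l =>
      rw [List.map_cons] at hs
      rcases List.sublist_cons_iff.1 hs with hs | ⟨r, hr, hs⟩
      · obtain ⟨z, h1, h2, h3⟩ := ih (a :: l) hl (by rwa [List.map_cons])
        exact ⟨0 :: z, by simp [h1], by rw [filter_zero_cons, h2], List.Forall₂.cons (Or.inl rfl) h3⟩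
      · rw [List.cons.injEq] at hr
        obtain ⟨rfl, rfl⟩ := hr
        obtain ⟨z, h1, h2, h3⟩ := ih l (fun e he => hl e (by simp [he])) hs
        have ha : a ≠ 0 := hl a (by simp)
        refine ⟨a :: z, by simp [h1], by rw [filter_ne_cons ha, h2], List.Forall₂.cons (Or.inr rfl) h3⟩

/-- the point of `ℝ^m` given by a list -/
def pt (m : ℕ) (l : List ℝ) : Fin m → ℝ := fun k => l.getD k 0

theorem ofFn_pt {m : ℕ} {l : List ℝ} (h : l.length = m) : List.ofFn (pt m l) = l := by
  subst h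
  apply List.ext_getElem
  · simp
  · intro i h1 h2
    simp [pt, h2]

theorem sum_pt {m : ℕ} {l : List ℝ} (h : l.length = m) (f : ℝ → ℝ) :
    ∑ k, f (pt m l k) = (l.map f).sum := by
  rw [← List.sum_ofFn]
  congr 1
  conv_rhs => rw [← ofFn_pt h]
  rw [List.map_ofFn]
  rfl

theorem sum_filter_sq (l : List ℝ) :
    ((l.filter (· ≠ 0)).map fun e => e ^ 2).sum = (l.map fun e => e ^ 2).sum := by
  induction l with
  | nil => rfl
  | cons a l ih =>
    by_cases ha : a = 0
    · rw [ha, filter_zero_cons, ih, List.map_cons, List.sum_cons]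
      ring
    · rw [filter_ne_cons ha, List.map_cons, List.map_cons, List.sum_cons, List.sum_cons, ih]

/-- the vertices of the kite -/
noncomputable def kiteV (x : ℝ) : Fin 4 → EuclideanSpace ℝ (Fin 2) :=
  ![!₂[-1, 0], !₂[1, 0], !₂[x, Real.sqrt (1 - x ^ 2)], !₂[x, -Real.sqrt (1 - x ^ 2)]]

theorem range_kiteV (x : ℝ) : Set.range (kiteV x) = kite x := by
  ext v
  simp only [Set.mem_range, Fin.exists_fin_succ, kiteV, kite, Set.mem_insert_iff,
    Set.mem_singleton_iff]
  simp [eq_comm]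

/-- coefficients of the squared distances -/
noncomputable def alphaM (x : ℝ) : Fin 4 → Fin 4 → ℝ :=
  ![![0, 4, 1 + 2 * x, 1 + 2 * x], ![4, 0, 1 - 2 * x, 1 - 2 * x],
    ![1 + 2 * x, 1 - 2 * x, 0, - 4 * x ^ 2], ![1 + 2 * x, 1 - 2 * x, - 4 * x ^ 2, 0]]

/-- coefficients of the squared distances -/
noncomputable def betaM : Fin 4 → Fin 4 → ℝ :=
  ![![0, 0, 1, 1], ![0, 0, 1, 1], ![1, 1, 0, 4], ![1, 1, 4, 0]]

/-- the four points, coordinatewise -/
noncomputable def quad (u v : ℝ) : Fin 4 → ℝ := ![-u, u, v, if u = 0 then -v else v]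

theorem quad_sub_sq {x u v : ℝ} (h : u = 0 ∨ v = x * u) (a b : Fin 4) :
    (quad u v a - quad u v b) ^ 2 = alphaM x a b * u ^ 2 + betaM a b * v ^ 2 := by
  by_cases hu : u = 0
  · subst hu
    fin_cases a <;> fin_cases b <;> simp [quad, alphaM, betaM] <;> ring
  · have hv : v = x * u := h.resolve_left hu
    subst hv
    fin_cases a <;> fin_cases b <;> simp [quad, alphaM, betaM, hu] <;> ring

theorem dist_sq_toLp {D : ℕ} (u v : Fin D → ℝ) :
    dist (WithLp.toLp 2 u : EuclideanSpace ℝ (Fin D)) (WithLp.toLp 2 v) ^ 2 =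
      ∑ k, (u k - v k) ^ 2 := by
  rw [EuclideanSpace.dist_eq, Real.sq_sqrt (by positivity)]
  refine Finset.sum_congr rfl fun k _ => ?_
  rw [Real.dist_eq, sq_abs]

theorem dist_sq_kiteV {x : ℝ} (hx : x ^ 2 ≤ 1) (a b : Fin 4) :
    dist (kiteV x a) (kiteV x b) ^ 2 = alphaM x a b + betaM a b := by
  have h : Real.sqrt (1 - x ^ 2) ^ 2 = 1 - x ^ 2 := Real.sq_sqrt (by linarith)
  rw [EuclideanSpace.dist_eq, Real.sq_sqrt (by positivity), Fin.sum_univ_two, Real.dist_eq,
    Real.dist_eq, sq_abs, sq_abs]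
  fin_cases a <;> fin_cases b <;>
    simp [kiteV, alphaM, betaM] <;> nlinarith [h]

/-- padding by zeros -/
noncomputable def padZ (m : ℕ) (l : List ℝ) : List ℝ := l ++ List.replicate (m - l.length) 0

theorem length_padZ {m : ℕ} {l : List ℝ} (h : l.length ≤ m) : (padZ m l).length = m := by
  simp [padZ]; omega

theorem filter_padZ (m : ℕ) (l : List ℝ) :
    (padZ m l).filter (fun e => decide (e ≠ 0)) = l.filter (fun e => decide (e ≠ 0)) := by
  rw [padZ, List.filter_append]
  have : (List.replicate (m - l.length) (0 : ℝ)).filter (fun e => decide (e ≠ 0)) = [] := by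
    rw [List.filter_eq_nil_iff]
    intro a ha
    have := List.eq_of_mem_replicate ha
    simp [this]
  rw [this, List.append_nil]

theorem mem_padZ {m : ℕ} {l : List ℝ} {e : ℝ} (h : e ∈ padZ m l) : e ∈ l ∨ e = 0 := by
  rw [padZ, List.mem_append] at h
  rcases h with h | h
  · exact Or.inl h
  · exact Or.inr (List.eq_of_mem_replicate h)

theorem pt_mem {m : ℕ} {l : List ℝ} (h : l.length = m) (k : Fin m) : pt m l k ∈ l := by
  subst h
  simp only [pt]
  rw [List.getD_eq_getElem _ _ k.2]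
  exact List.getElem_mem _

theorem word_pt {m : ℕ} {l : List ℝ} (h : l.length ≤ m) (_hl : ∀ e ∈ l, 0 ≤ e)
    (y : Fin m → ℝ) (hy : ∀ k, |y k| = pt m (padZ m l) k) :
    (List.ofFn fun k => |y k|).filter (fun e => decide (e ≠ 0)) =
      l.filter (fun e => decide (e ≠ 0)) := by
  have : (fun k => |y k|) = pt m (padZ m l) := funext hy
  rw [this, ofFn_pt (length_padZ h), filter_padZ]

/-- **Right kites are Ramsey.** -/
theorem isRamsey_kite {x : ℝ} (hx0 : 0 < x) (hx : x ≤ 1 / 2) : IsRamsey (kite x) := by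
  classical
  rw [← range_kiteV]
  refine isRamsey_range _ fun r hr => ?_
  set m := (wd x r).length with hm
  have hlen : ∀ j, j ≤ r → (wd x j).length ≤ m := by
    intro j hj
    rcases hj.lt_or_eq with h | h
    · have := (wd_sublist x h).length_le
      rwa [List.length_map] at this
    · rw [h]
  have hfilt : ∀ j, (wd x j).filter (fun e => decide (e ≠ 0)) = wd x j := by
    intro j
    rw [List.filter_eq_self]
    intro a ha
    have := wd_pos hx0 hx j a ha
    simp [this.ne']
  let E : List ℝ := (List.range (r + 1)).flatMap (wd x)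
  have hE : ∀ j, j ≤ r → ∀ e ∈ wd x j, e ∈ E := by
    intro j hj e he
    exact List.mem_flatMap.2 ⟨j, List.mem_range.2 (by omega), he⟩
  let S : Finset ℝ := insert 0 ((E ++ E.map fun e => -e).toFinset)
  have hS0 : (0 : ℝ) ∈ S := Finset.mem_insert_self _ _
  have hS1 : ∀ e ∈ E, e ∈ S := fun e he => Finset.mem_insert_of_mem
    (List.mem_toFinset.2 (List.mem_append_left _ he))
  have hS2 : ∀ e ∈ E, -e ∈ S := fun e he => Finset.mem_insert_of_mem
    (List.mem_toFinset.2 (List.mem_append_right _ (List.mem_map_of_mem he)))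
  obtain ⟨D, hD⟩ := exists_abs_words (Fin r) S m
  have hmpos : 0 < m := by rw [hm, wd]; simp
  have hDpos : 1 ≤ D := by
    by_contra hcon
    have hD0 : D = 0 := by omega
    subst hD0
    obtain ⟨ι, hι, -⟩ := hD fun _ => ⟨0, by omega⟩
    have h01 := hι 0 1
    simp only [Finset.univ_eq_empty, Finset.sum_empty, Pi.zero_apply, Pi.one_apply] at h01
    simp only [zero_sub, neg_sq, one_pow, Finset.sum_const, Finset.card_univ, Fintype.card_fin,
      nsmul_eq_mul, mul_one] at h01
    have : m = 0 := by exact_mod_cast h01.symm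
    omega
  refine ⟨D, hDpos, fun c => ?_⟩
  obtain ⟨ι, hι, hc⟩ := hD fun z => c (WithLp.toLp 2 z)
  -- pigeonhole
  obtain ⟨i, j, hij, hij', hcol⟩ : ∃ i j : ℕ, i < j ∧ j ≤ r ∧
      c (WithLp.toLp 2 (ι (pt m (padZ m (wd x i))))) =
        c (WithLp.toLp 2 (ι (pt m (padZ m (wd x j))))) := by
    obtain ⟨i, j, hne, h⟩ := Fintype.exists_ne_map_eq_of_card_lt
      (fun j : Fin (r + 1) => c (WithLp.toLp 2 (ι (pt m (padZ m (wd x j)))))) (by simp)
    rcases lt_or_gt_of_ne (fun h => hne (Fin.ext h) : (i : ℕ) ≠ j) with h' | h'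
    · exact ⟨i, j, h', by omega, h⟩
    · exact ⟨j, i, h', by omega, h.symm⟩
  have hi : i ≤ r := by omega
  obtain ⟨z, hz1, hz2, hz3⟩ := exists_zeros (x := x) (wd x j) (wd x i)
    (fun e he => (wd_pos hx0 hx i e he).ne') (wd_sublist x hij)
  have hzlen : z.length ≤ m := by rw [hz1]; exact hlen j hij'
  have hznn : ∀ e ∈ z, 0 ≤ e := by
    intro e he
    by_cases h0 : e = 0
    · rw [h0]
    · have : e ∈ z.filter (fun e => decide (e ≠ 0)) := List.mem_filter.2 ⟨he, by simp [h0]⟩
      rw [hz2] at this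
      exact (wd_pos hx0 hx i e this).le
  set u := pt m (padZ m z) with hu
  set v := pt m (padZ m (wd x j)) with hv
  have hrel : ∀ k, u k = 0 ∨ v k = x * u k := by
    intro k
    simp only [hu, hv, pt, padZ]
    by_cases hk : (k : ℕ) < z.length
    · have hk' : (k : ℕ) < (wd x j).length := by rw [← hz1]; exact hk
      rw [List.getD_append _ _ _ _ hk, List.getD_append _ _ _ _ hk',
        List.getD_eq_getElem _ _ hk, List.getD_eq_getElem _ _ hk']
      exact (List.forall₂_iff_get.1 hz3).2 k hk hk'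
    · left
      rw [List.getD_append_right _ _ _ _ (by omega)]
      by_cases hk2 : (k : ℕ) - z.length < (List.replicate (m - z.length) (0 : ℝ)).length
      · rw [List.getD_eq_getElem _ _ hk2, List.getElem_replicate]
      · rw [List.getD_eq_default _ _ (by omega)]
  have hu2 : ∑ k, u k ^ 2 = 1 := by
    rw [hu, sum_pt (length_padZ hzlen) (fun e => e ^ 2), ← sum_filter_sq, filter_padZ, hz2,
      wd_norm hx0 hx]
  have hv2 : ∑ k, v k ^ 2 = 1 := by
    rw [hv, sum_pt (length_padZ (hlen j hij')) (fun e => e ^ 2), ← sum_filter_sq, filter_padZ,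
      hfilt, wd_norm hx0 hx]
  have hu0 : ∀ k, 0 ≤ u k := by
    intro k
    rcases mem_padZ (pt_mem (length_padZ hzlen) k) with h | h
    · exact hznn _ h
    · exact h.ge
  have hv0 : ∀ k, 0 ≤ v k := by
    intro k
    rcases mem_padZ (pt_mem (length_padZ (hlen j hij')) k) with h | h
    · exact (wd_pos hx0 hx j _ h).le
    · exact h.ge
  have huE : ∀ k, u k = 0 ∨ u k ∈ E := by
    intro k
    by_cases h0 : u k = 0
    · exact Or.inl h0
    · right
      rcases mem_padZ (pt_mem (length_padZ hzlen) k) with h | h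
      · have : u k ∈ z.filter (fun e => decide (e ≠ 0)) := List.mem_filter.2 ⟨h, by simp [h0]⟩
        rw [hz2] at this
        exact hE i hi _ this
      · exact absurd h h0
  have hvE : ∀ k, v k = 0 ∨ v k ∈ E := by
    intro k
    rcases mem_padZ (pt_mem (length_padZ (hlen j hij')) k) with h | h
    · exact Or.inr (hE j hij' _ h)
    · exact Or.inl h
  have hSu : ∀ k, u k ∈ S ∧ - u k ∈ S := by
    intro k
    rcases huE k with h | h
    · rw [h, neg_zero]; exact ⟨hS0, hS0⟩
    · exact ⟨hS1 _ h, hS2 _ h⟩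
  have hSv : ∀ k, v k ∈ S ∧ - v k ∈ S := by
    intro k
    rcases hvE k with h | h
    · rw [h, neg_zero]; exact ⟨hS0, hS0⟩
    · exact ⟨hS1 _ h, hS2 _ h⟩
  -- the four points
  let q : Fin 4 → Fin m → ℝ := fun a k => quad (u k) (v k) a
  have hqS : ∀ a k, q a k ∈ S := by
    intro a k
    fin_cases a
    · exact (hSu k).2
    · exact (hSu k).1
    · exact (hSv k).1
    · change (if u k = 0 then - v k else v k) ∈ S
      split_ifs
      · exact (hSv k).2
      · exact (hSv k).1
  have hq01 : ∀ a : Fin 4, a = 0 ∨ a = 1 → ∀ k, |q a k| = u k := by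
    rintro a (rfl | rfl) k
    · change |- u k| = u k
      rw [abs_neg, abs_of_nonneg (hu0 k)]
    · change |u k| = u k
      rw [abs_of_nonneg (hu0 k)]
  have hq23 : ∀ a : Fin 4, a = 2 ∨ a = 3 → ∀ k, |q a k| = v k := by
    rintro a (rfl | rfl) k
    · change |v k| = v k
      rw [abs_of_nonneg (hv0 k)]
    · change |if u k = 0 then - v k else v k| = v k
      split_ifs
      · rw [abs_neg, abs_of_nonneg (hv0 k)]
      · rw [abs_of_nonneg (hv0 k)]
  have hrepS : ∀ l, l ≤ r → ∀ k, pt m (padZ m (wd x l)) k ∈ S := by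
    intro l hl k
    rcases mem_padZ (pt_mem (length_padZ (hlen l hl)) k) with h | h
    · exact hS1 _ (hE l hl _ h)
    · rw [h]; exact hS0
  have hrepw : ∀ l, l ≤ r → (List.ofFn fun k => |pt m (padZ m (wd x l)) k|).filter
      (fun e => decide (e ≠ 0)) = wd x l := by
    intro l hl
    rw [word_pt (hlen l hl) (fun e he => (wd_pos hx0 hx l e he).le) _ (fun k => ?_), hfilt]
    rcases mem_padZ (pt_mem (length_padZ (hlen l hl)) k) with h | h
    · rw [abs_of_pos (wd_pos hx0 hx l _ h)]
    · rw [h, abs_zero]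
  have hcol' : ∀ a, c (WithLp.toLp 2 (ι (q a))) =
      c (WithLp.toLp 2 (ι (pt m (padZ m (wd x i))))) := by
    intro a
    have h01 : ∀ a : Fin 4, a = 0 ∨ a = 1 → c (WithLp.toLp 2 (ι (q a))) =
        c (WithLp.toLp 2 (ι (pt m (padZ m (wd x i))))) := by
      intro a ha
      refine hc _ _ (hqS a) (hrepS i hi) ?_
      rw [hrepw i hi, word_pt hzlen hznn _ (hq01 a ha), hz2]
    have h23 : ∀ a : Fin 4, a = 2 ∨ a = 3 → c (WithLp.toLp 2 (ι (q a))) =
        c (WithLp.toLp 2 (ι (pt m (padZ m (wd x i))))) := by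
      intro a ha
      rw [hcol]
      refine hc _ _ (hqS a) (hrepS j hij') ?_
      rw [hrepw j hij', word_pt (hlen j hij') (fun e he => (wd_pos hx0 hx j e he).le) _
        (hq23 a ha), hfilt]
    fin_cases a
    · exact h01 0 (Or.inl rfl)
    · exact h01 1 (Or.inr rfl)
    · exact h23 2 (Or.inl rfl)
    · exact h23 3 (Or.inr rfl)
  refine ⟨fun a => WithLp.toLp 2 (ι (q a)), fun a b => ?_, fun a b => ?_⟩
  · have h1 : dist (WithLp.toLp 2 (ι (q a)) : EuclideanSpace ℝ (Fin D))
        (WithLp.toLp 2 (ι (q b))) ^ 2 = dist (kiteV x a) (kiteV x b) ^ 2 := by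
      rw [dist_sq_toLp, hι, dist_sq_kiteV (by nlinarith)]
      rw [Finset.sum_congr rfl fun k _ => quad_sub_sq (hrel k) a b, Finset.sum_add_distrib,
        ← Finset.mul_sum, ← Finset.mul_sum, hu2, hv2]
      ring
    exact (pow_left_inj₀ dist_nonneg dist_nonneg two_ne_zero).1 h1
  · rw [hcol' a, hcol' b]

end Vale.Agent.P058
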