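import Vale.Agent.P058.Tour

/-!
# P058 — a transitive tournament of words, for every `0 < x < 1`
-/

namespace Vale.Agent.P058

open scoped BigOperators

/-- the mass which has to be realised by the letters of exponent zero -/
noncomputable def gg (y : ℝ) (J : ℕ) : ℝ := (1 - y) / 2 + (1 + y) * y ^ J / 2

/-- masses of the base letters -/
noncomputable def mass (y : ℝ) (j0 r s : ℕ) : ℝ :=
  if s = 0 then (1 - y ^ 2) / (2 * y) - gg y j0
  else if s ≤ r then gg y (j0 + (s - 1)) - gg y (j0 + s)
  else gg y (j0 + r)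

/-- base letters -/
noncomputable def base (x : ℝ) (j0 r s : ℕ) : ℝ := Real.sqrt (mass (x ^ 2) j0 r s)

/-- block of the base letter `s` in the word `j` -/
noncomputable def blk (x : ℝ) (j0 r j s : ℕ) : List ℝ :=
  if j < s then (List.range (j0 + j + 1)).map fun m => x ^ m * base x j0 r s
  else (List.range (j0 + j)).map fun m => x ^ (m + 1) * base x j0 r s

/-- the words -/
noncomputable def wd2 (x : ℝ) (j0 r j : ℕ) : List ℝ :=
  (List.range (r + 2)).flatMap fun s => blk x j0 r j s

theorem mass_pos {y : ℝ} (hy0 : 0 < y) (hy1 : y < 1) {j0 : ℕ}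
    (hj0 : y ^ j0 ≤ (1 - y) / (1 + y)) (r s : ℕ) : 0 < mass y j0 r s := by
  simp only [mass]
  split_ifs with h1 h2
  · rw [gg, sub_pos]
    rw [le_div_iff₀ (by linarith)] at hj0
    have h3 : y * (y ^ j0 * (1 + y)) ≤ y * (1 - y) := mul_le_mul_of_nonneg_left hj0 hy0.le
    have h4 : ((1 - y) / 2 + (1 + y) * y ^ j0 / 2) =
        (y * (1 - y) + y * (y ^ j0 * (1 + y))) / (2 * y) := by
      field_simp
    rw [h4]
    apply div_lt_div_of_pos_right _ (by linarith)
    nlinarith
  · obtain ⟨t, rfl⟩ : ∃ t, s = t + 1 := ⟨s - 1, by omega⟩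
    have : gg y (j0 + (t + 1 - 1)) - gg y (j0 + (t + 1)) = (1 + y) * (1 - y) * y ^ (j0 + t) / 2 := by
      simp only [gg, Nat.add_sub_cancel]
      rw [← add_assoc, pow_succ]
      ring
    rw [this]
    have h3 : 0 < 1 - y := by linarith
    positivity
  · rw [gg]
    have h3 : 0 < 1 - y := by linarith
    positivity

/-- telescoping -/
theorem sum_mass_ge {y : ℝ} (j0 r : ℕ) : ∀ j, j ≤ r →
    ∑ s ∈ Finset.range (r + 2), (if j < s then mass y j0 r s else 0) = gg y (j0 + j) := by
  intro j hj
  induction hk : r - j generalizing j with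
  | zero =>
    have : j = r := by omega
    subst this
    rw [Finset.sum_range_succ, Finset.sum_eq_zero]
    · simp [mass]
    · intro s hs
      have := Finset.mem_range.1 hs
      rw [if_neg (by omega)]
  | succ k ih =>
    have h1 := ih (j + 1) (by omega) (by omega)
    have h2 : ∀ s ∈ Finset.range (r + 2), (if j < s then mass y j0 r s else 0) =
        (if j + 1 < s then mass y j0 r s else 0) + if s = j + 1 then mass y j0 r s else 0 := by
      intro s _
      by_cases hs : s = j + 1
      · subst hs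
        simp
      · by_cases hs2 : j < s
        · have : j + 1 < s := by omega
          simp [hs2, this, hs]
        · have : ¬ j + 1 < s := by omega
          simp [hs2, this, hs]
    rw [Finset.sum_congr rfl h2, Finset.sum_add_distrib, h1, Finset.sum_ite_eq']
    rw [if_pos (Finset.mem_range.2 (by omega))]
    simp only [mass]
    rw [if_neg (by omega), if_pos (by omega), Nat.add_sub_cancel]
    ring

theorem sum_mass {y : ℝ} (j0 r : ℕ) :
    ∑ s ∈ Finset.range (r + 2), mass y j0 r s = (1 - y ^ 2) / (2 * y) := by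
  have h := sum_mass_ge (y := y) j0 r 0 (Nat.zero_le r)
  rw [Finset.sum_range_succ'] at h ⊢
  simp only [lt_irrefl, if_false, add_zero, Nat.succ_pos, if_true] at h
  rw [h]
  simp [mass]

theorem sum_pow_succ {y : ℝ} (hy : y ≠ 1) (n : ℕ) :
    ∑ m ∈ Finset.range n, y ^ (m + 1) = y * (1 - y ^ n) / (1 - y) := by
  have h1 : (1 : ℝ) - y ≠ 0 := sub_ne_zero.2 hy.symm
  induction n with
  | zero => simp
  | succ n ih =>
    rw [Finset.sum_range_succ, ih, pow_succ]
    field_simp
    ring

theorem base_sq {x : ℝ} (hx0 : 0 < x) (hx1 : x < 1) {j0 : ℕ}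
    (hj0 : (x ^ 2) ^ j0 ≤ (1 - x ^ 2) / (1 + x ^ 2)) (r s : ℕ) :
    base x j0 r s ^ 2 = mass (x ^ 2) j0 r s :=
  Real.sq_sqrt (mass_pos (by positivity) (by nlinarith) hj0 r s).le

theorem blk_norm {x : ℝ} (hx0 : 0 < x) (hx1 : x < 1) {j0 : ℕ}
    (hj0 : (x ^ 2) ^ j0 ≤ (1 - x ^ 2) / (1 + x ^ 2)) (r j s : ℕ) :
    ((blk x j0 r j s).map fun e => e ^ 2).sum =
      mass (x ^ 2) j0 r s * (x ^ 2 * (1 - (x ^ 2) ^ (j0 + j)) / (1 - x ^ 2)) +
        if j < s then mass (x ^ 2) j0 r s else 0 := by
  have hy1 : x ^ 2 ≠ 1 := by nlinarith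
  rw [← sum_pow_succ hy1, Finset.mul_sum]
  by_cases hs : j < s
  · rw [blk, if_pos hs, if_pos hs, List.map_map, sum_map_range_eq, Finset.sum_range_succ']
    simp only [Function.comp, pow_zero, one_mul, base_sq hx0 hx1 hj0]
    congr 1
    refine Finset.sum_congr rfl fun m _ => ?_
    rw [mul_pow, base_sq hx0 hx1 hj0]
    ring
  · rw [blk, if_neg hs, if_neg hs, add_zero, List.map_map, sum_map_range_eq]
    refine Finset.sum_congr rfl fun m _ => ?_
    simp only [Function.comp]
    rw [mul_pow, base_sq hx0 hx1 hj0]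
    ring

theorem wd2_norm {x : ℝ} (hx0 : 0 < x) (hx1 : x < 1) {j0 : ℕ}
    (hj0 : (x ^ 2) ^ j0 ≤ (1 - x ^ 2) / (1 + x ^ 2)) {r j : ℕ} (hj : j ≤ r) :
    ((wd2 x j0 r j).map fun e => e ^ 2).sum = 1 := by
  rw [wd2, List.flatMap_def, List.map_flatten, List.sum_flatten, List.map_map, List.map_map,
    sum_map_range_eq]
  have : ∀ s ∈ Finset.range (r + 2), ((List.sum ∘ List.map fun e => e ^ 2) ∘
      fun s => blk x j0 r j s) s =
      mass (x ^ 2) j0 r s * (x ^ 2 * (1 - (x ^ 2) ^ (j0 + j)) / (1 - x ^ 2)) +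
        if j < s then mass (x ^ 2) j0 r s else 0 := fun s _ => blk_norm hx0 hx1 hj0 r j s
  rw [Finset.sum_congr rfl this, Finset.sum_add_distrib, ← Finset.sum_mul, sum_mass,
    sum_mass_ge j0 r j hj, gg]
  have h1 : (1 : ℝ) - x ^ 2 ≠ 0 := by nlinarith
  have h2 : x ≠ 0 := hx0.ne'
  field_simp
  ring

theorem wd2_pos {x : ℝ} (hx0 : 0 < x) (hx1 : x < 1) {j0 : ℕ}
    (hj0 : (x ^ 2) ^ j0 ≤ (1 - x ^ 2) / (1 + x ^ 2)) (r j : ℕ) :
    ∀ e ∈ wd2 x j0 r j, 0 < e := by
  intro e he
  obtain ⟨s, _, hs⟩ := List.mem_flatMap.1 he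
  have hb : 0 < base x j0 r s :=
    Real.sqrt_pos.2 (mass_pos (by positivity) (by nlinarith) hj0 r s)
  rw [blk] at hs
  split_ifs at hs
  · obtain ⟨m, _, rfl⟩ := List.mem_map.1 hs
    positivity
  · obtain ⟨m, _, rfl⟩ := List.mem_map.1 hs
    positivity

theorem range_map_sublist (f : ℕ → ℝ) {a b : ℕ} (h : a ≤ b) :
    ((List.range a).map f).Sublist ((List.range b).map f) := by
  obtain ⟨k, rfl⟩ := Nat.exists_eq_add_of_le h
  rw [List.range_add, List.map_append]
  exact List.sublist_append_left _ _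

theorem range_succ_one (n : ℕ) :
    List.range (n + 1) = List.range 1 ++ (List.range n).map fun m => 1 + m := by
  rw [add_comm n 1]
  exact List.range_add

theorem blk_sublist (x : ℝ) (j0 r s : ℕ) {i j : ℕ} (hij : i < j) :
    ((blk x j0 r i s).map fun e => x * e).Sublist (blk x j0 r j s) := by
  -- everything is compared with the letters of exponent `1, …, j0 + i + 1`
  have h1 : ((blk x j0 r i s).map fun e => x * e).Sublist
      ((List.range (j0 + i + 1)).map fun m => x ^ (m + 1) * base x j0 r s) := by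
    rw [blk]
    split_ifs
    · rw [List.map_map]
      have : ((fun e => x * e) ∘ fun m => x ^ m * base x j0 r s) =
          fun m => x ^ (m + 1) * base x j0 r s := by
        funext m
        simp only [Function.comp]
        ring
      rw [this]
    · rw [List.map_map, range_succ_one, List.map_append]
      refine List.Sublist.trans ?_ (List.sublist_append_right _ _)
      rw [List.map_map]
      have : ((fun e => x * e) ∘ fun m => x ^ (m + 1) * base x j0 r s) =
          (fun m => x ^ (m + 1) * base x j0 r s) ∘ fun m => 1 + m := by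
        funext m
        simp only [Function.comp]
        ring
      rw [this]
  refine h1.trans ?_
  rw [blk]
  split_ifs
  · rw [range_succ_one (j0 + j), List.map_append]
    refine List.Sublist.trans ?_ (List.sublist_append_right _ _)
    rw [List.map_map]
    have : ((fun m => x ^ m * base x j0 r s) ∘ fun m => 1 + m) =
        fun m => x ^ (m + 1) * base x j0 r s := by
      funext m
      simp only [Function.comp]
      rw [add_comm 1 m]
    rw [this]
    exact range_map_sublist _ (by omega)
  · exact range_map_sublist _ (by omega)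

theorem wd2_sublist (x : ℝ) (j0 r : ℕ) {i j : ℕ} (hij : i < j) :
    ((wd2 x j0 r i).map fun e => x * e).Sublist (wd2 x j0 r j) := by
  rw [wd2, wd2, List.map_flatMap]
  exact flatMap_sublist _ _ _ fun s _ => blk_sublist x j0 r s hij

end Vale.Agent.P058
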