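import Vale.Agent.P058.Kite
import Vale.Agent.P058.Tour2

/-!
# P058 — all right kites are Ramsey
-/

namespace Vale.Agent.P058

open scoped BigOperators

/-- a right kite is Ramsey as soon as there are tournaments of words of every length -/
theorem isRamsey_kite_of_words {x : ℝ} (hx : x ^ 2 ≤ 1)
    (hw : ∀ r : ℕ, ∃ w : ℕ → List ℝ, (∀ j, ∀ e ∈ w j, 0 < e) ∧
      (∀ j, j ≤ r → ((w j).map fun e => e ^ 2).sum = 1) ∧
      ∀ i j, i < j → ((w i).map fun e => x * e).Sublist (w j)) : IsRamsey (kite x) := by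
  classical
  rw [← range_kiteV]
  refine isRamsey_range _ fun r hr => ?_
  obtain ⟨w, w_pos, w_norm, w_sub⟩ := hw r
  set m := (w r).length with hm
  have hlen : ∀ j, j ≤ r → (w j).length ≤ m := by
    intro j hj
    rcases hj.lt_or_eq with h | h
    · have := (w_sub j r h).length_le
      rwa [List.length_map] at this
    · rw [h]
  have hfilt : ∀ j, (w j).filter (fun e => decide (e ≠ 0)) = w j := by
    intro j
    rw [List.filter_eq_self]
    intro a ha
    have := w_pos j a ha
    simp [this.ne']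
  let E : List ℝ := (List.range (r + 1)).flatMap w
  have hE : ∀ j, j ≤ r → ∀ e ∈ w j, e ∈ E := by
    intro j hj e he
    exact List.mem_flatMap.2 ⟨j, List.mem_range.2 (by omega), he⟩
  let S : Finset ℝ := insert 0 ((E ++ E.map fun e => -e).toFinset)
  have hS0 : (0 : ℝ) ∈ S := Finset.mem_insert_self _ _
  have hS1 : ∀ e ∈ E, e ∈ S := fun e he => Finset.mem_insert_of_mem
    (List.mem_toFinset.2 (List.mem_append_left _ he))
  have hS2 : ∀ e ∈ E, -e ∈ S := fun e he => Finset.mem_insert_of_mem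
    (List.mem_toFinset.2 (List.mem_append_right _ (List.mem_map_of_mem he)))
  obtain ⟨D, hD⟩ := exists_abs_words (Fin r) S m
  have hmpos : 0 < m := by
    rw [hm]
    apply List.length_pos_iff.2
    intro h0
    have := w_norm r le_rfl
    rw [h0] at this
    simp at this
  have hDpos : 1 ≤ D := by
    by_contra hcon
    have hD0 : D = 0 := by omega
    subst hD0
    obtain ⟨ι, hι, -⟩ := hD fun _ => ⟨0, by omega⟩
    have h01 := hι 0 1
    simp only [Finset.univ_eq_empty, Finset.sum_empty, Pi.zero_apply, Pi.one_apply] at h01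
    simp only [zero_sub, neg_sq, one_pow, Finset.sum_const, Finset.card_univ, Fintype.card_fin,
      nsmul_eq_mul, mul_one] at h01
    have : m = 0 := by exact_mod_cast h01.symm
    omega
  refine ⟨D, hDpos, fun c => ?_⟩
  obtain ⟨ι, hι, hc⟩ := hD fun z => c (WithLp.toLp 2 z)
  -- pigeonhole
  obtain ⟨i, j, hij, hij', hcol⟩ : ∃ i j : ℕ, i < j ∧ j ≤ r ∧
      c (WithLp.toLp 2 (ι (pt m (padZ m (w i))))) =
        c (WithLp.toLp 2 (ι (pt m (padZ m (w j))))) := by
    obtain ⟨i, j, hne, h⟩ := Fintype.exists_ne_map_eq_of_card_lt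
      (fun j : Fin (r + 1) => c (WithLp.toLp 2 (ι (pt m (padZ m (w j)))))) (by simp)
    rcases lt_or_gt_of_ne (fun h => hne (Fin.ext h) : (i : ℕ) ≠ j) with h' | h'
    · exact ⟨i, j, h', by omega, h⟩
    · exact ⟨j, i, h', by omega, h.symm⟩
  have hi : i ≤ r := by omega
  obtain ⟨z, hz1, hz2, hz3⟩ := exists_zeros (x := x) (w j) (w i)
    (fun e he => (w_pos i e he).ne') (w_sub i j hij)
  have hzlen : z.length ≤ m := by rw [hz1]; exact hlen j hij'
  have hznn : ∀ e ∈ z, 0 ≤ e := by
    intro e he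
    by_cases h0 : e = 0
    · rw [h0]
    · have : e ∈ z.filter (fun e => decide (e ≠ 0)) := List.mem_filter.2 ⟨he, by simp [h0]⟩
      rw [hz2] at this
      exact (w_pos i e this).le
  set u := pt m (padZ m z) with hu
  set v := pt m (padZ m (w j)) with hv
  have hrel : ∀ k, u k = 0 ∨ v k = x * u k := by
    intro k
    simp only [hu, hv, pt, padZ]
    by_cases hk : (k : ℕ) < z.length
    · have hk' : (k : ℕ) < (w j).length := by rw [← hz1]; exact hk
      rw [List.getD_append _ _ _ _ hk, List.getD_append _ _ _ _ hk',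
        List.getD_eq_getElem _ _ hk, List.getD_eq_getElem _ _ hk']
      exact (List.forall₂_iff_get.1 hz3).2 k hk hk'
    · left
      rw [List.getD_append_right _ _ _ _ (by omega)]
      by_cases hk2 : (k : ℕ) - z.length < (List.replicate (m - z.length) (0 : ℝ)).length
      · rw [List.getD_eq_getElem _ _ hk2, List.getElem_replicate]
      · rw [List.getD_eq_default _ _ (by omega)]
  have hu2 : ∑ k, u k ^ 2 = 1 := by
    rw [hu, sum_pt (length_padZ hzlen) (fun e => e ^ 2), ← sum_filter_sq, filter_padZ, hz2,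
      w_norm _ (by omega)]
  have hv2 : ∑ k, v k ^ 2 = 1 := by
    rw [hv, sum_pt (length_padZ (hlen j hij')) (fun e => e ^ 2), ← sum_filter_sq, filter_padZ,
      hfilt, w_norm _ (by omega)]
  have hu0 : ∀ k, 0 ≤ u k := by
    intro k
    rcases mem_padZ (pt_mem (length_padZ hzlen) k) with h | h
    · exact hznn _ h
    · exact h.ge
  have hv0 : ∀ k, 0 ≤ v k := by
    intro k
    rcases mem_padZ (pt_mem (length_padZ (hlen j hij')) k) with h | h
    · exact (w_pos j _ h).le
    · exact h.ge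
  have huE : ∀ k, u k = 0 ∨ u k ∈ E := by
    intro k
    by_cases h0 : u k = 0
    · exact Or.inl h0
    · right
      rcases mem_padZ (pt_mem (length_padZ hzlen) k) with h | h
      · have : u k ∈ z.filter (fun e => decide (e ≠ 0)) := List.mem_filter.2 ⟨h, by simp [h0]⟩
        rw [hz2] at this
        exact hE i hi _ this
      · exact absurd h h0
  have hvE : ∀ k, v k = 0 ∨ v k ∈ E := by
    intro k
    rcases mem_padZ (pt_mem (length_padZ (hlen j hij')) k) with h | h
    · exact Or.inr (hE j hij' _ h)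
    · exact Or.inl h
  have hSu : ∀ k, u k ∈ S ∧ - u k ∈ S := by
    intro k
    rcases huE k with h | h
    · rw [h, neg_zero]; exact ⟨hS0, hS0⟩
    · exact ⟨hS1 _ h, hS2 _ h⟩
  have hSv : ∀ k, v k ∈ S ∧ - v k ∈ S := by
    intro k
    rcases hvE k with h | h
    · rw [h, neg_zero]; exact ⟨hS0, hS0⟩
    · exact ⟨hS1 _ h, hS2 _ h⟩
  -- the four points
  let q : Fin 4 → Fin m → ℝ := fun a k => quad (u k) (v k) a
  have hqS : ∀ a k, q a k ∈ S := by
    intro a k
    fin_cases a
    · exact (hSu k).2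
    · exact (hSu k).1
    · exact (hSv k).1
    · change (if u k = 0 then - v k else v k) ∈ S
      split_ifs
      · exact (hSv k).2
      · exact (hSv k).1
  have hq01 : ∀ a : Fin 4, a = 0 ∨ a = 1 → ∀ k, |q a k| = u k := by
    rintro a (rfl | rfl) k
    · change |- u k| = u k
      rw [abs_neg, abs_of_nonneg (hu0 k)]
    · change |u k| = u k
      rw [abs_of_nonneg (hu0 k)]
  have hq23 : ∀ a : Fin 4, a = 2 ∨ a = 3 → ∀ k, |q a k| = v k := by
    rintro a (rfl | rfl) k
    · change |v k| = v k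
      rw [abs_of_nonneg (hv0 k)]
    · change |if u k = 0 then - v k else v k| = v k
      split_ifs
      · rw [abs_neg, abs_of_nonneg (hv0 k)]
      · rw [abs_of_nonneg (hv0 k)]
  have hrepS : ∀ l, l ≤ r → ∀ k, pt m (padZ m (w l)) k ∈ S := by
    intro l hl k
    rcases mem_padZ (pt_mem (length_padZ (hlen l hl)) k) with h | h
    · exact hS1 _ (hE l hl _ h)
    · rw [h]; exact hS0
  have hrepw : ∀ l, l ≤ r → (List.ofFn fun k => |pt m (padZ m (w l)) k|).filter
      (fun e => decide (e ≠ 0)) = w l := by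
    intro l hl
    rw [word_pt (hlen l hl) (fun e he => (w_pos l e he).le) _ (fun k => ?_), hfilt]
    rcases mem_padZ (pt_mem (length_padZ (hlen l hl)) k) with h | h
    · rw [abs_of_pos (w_pos l _ h)]
    · rw [h, abs_zero]
  have hcol' : ∀ a, c (WithLp.toLp 2 (ι (q a))) =
      c (WithLp.toLp 2 (ι (pt m (padZ m (w i))))) := by
    intro a
    have h01 : ∀ a : Fin 4, a = 0 ∨ a = 1 → c (WithLp.toLp 2 (ι (q a))) =
        c (WithLp.toLp 2 (ι (pt m (padZ m (w i))))) := by
      intro a ha
      refine hc _ _ (hqS a) (hrepS i hi) ?_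
      rw [hrepw i hi, word_pt hzlen hznn _ (hq01 a ha), hz2]
    have h23 : ∀ a : Fin 4, a = 2 ∨ a = 3 → c (WithLp.toLp 2 (ι (q a))) =
        c (WithLp.toLp 2 (ι (pt m (padZ m (w i))))) := by
      intro a ha
      rw [hcol]
      refine hc _ _ (hqS a) (hrepS j hij') ?_
      rw [hrepw j hij', word_pt (hlen j hij') (fun e he => (w_pos j e he).le) _
        (hq23 a ha), hfilt]
    fin_cases a
    · exact h01 0 (Or.inl rfl)
    · exact h01 1 (Or.inr rfl)
    · exact h23 2 (Or.inl rfl)
    · exact h23 3 (Or.inr rfl)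
  refine ⟨fun a => WithLp.toLp 2 (ι (q a)), fun a b => ?_, fun a b => ?_⟩
  · have h1 : dist (WithLp.toLp 2 (ι (q a)) : EuclideanSpace ℝ (Fin D))
        (WithLp.toLp 2 (ι (q b))) ^ 2 = dist (kiteV x a) (kiteV x b) ^ 2 := by
      rw [dist_sq_toLp, hι, dist_sq_kiteV hx]
      rw [Finset.sum_congr rfl fun k _ => quad_sub_sq (hrel k) a b, Finset.sum_add_distrib,
        ← Finset.mul_sum, ← Finset.mul_sum, hu2, hv2]
      ring
    exact (pow_left_inj₀ dist_nonneg dist_nonneg two_ne_zero).1 h1
  · rw [hcol' a, hcol' b]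

/-- **All right kites are Ramsey.** -/
theorem isRamsey_kite_all {x : ℝ} (hx0 : 0 < x) (hx1 : x < 1) : IsRamsey (kite x) := by
  refine isRamsey_kite_of_words (by nlinarith) fun r => ?_
  have hy1 : x ^ 2 < 1 := by nlinarith
  obtain ⟨j0, hj0⟩ := exists_pow_lt_of_lt_one
    (show 0 < (1 - x ^ 2) / (1 + x ^ 2) by
      have : 0 < 1 - x ^ 2 := by linarith
      positivity) hy1
  exact ⟨wd2 x j0 r, fun j => wd2_pos hx0 hx1 hj0.le r j, fun j hj => wd2_norm hx0 hx1 hj0.le hj,
    fun i j hij => wd2_sublist x j0 r hij⟩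

end Vale.Agent.P058
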