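import Vale.Agent.P058.Defs

/-!
# P058 — definitions: transitive sets, subtransitive sets, right kites
-/

namespace Vale.Agent.P058

/-- A set `X ⊆ ℝ^n` is transitive if the isometries of `ℝ^n` mapping `X` onto itself act
transitively on `X`. -/
def IsTransitiveSet {n : ℕ} (X : Set (EuclideanSpace ℝ (Fin n))) : Prop :=
  ∀ a ∈ X, ∀ b ∈ X, ∃ g : EuclideanSpace ℝ (Fin n) ≃ᵢ EuclideanSpace ℝ (Fin n),
    g '' X = X ∧ g a = b

/-- A set is subtransitive if it is congruent to a subset of a finite transitive set. -/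
def IsSubtransitive {d : ℕ} (A : Set (EuclideanSpace ℝ (Fin d))) : Prop :=
  ∃ (n : ℕ) (X : Set (EuclideanSpace ℝ (Fin n))), X.Finite ∧ IsTransitiveSet X ∧
    ∃ φ : A → EuclideanSpace ℝ (Fin n), Isometry φ ∧ ∀ a, φ a ∈ X

/-- The right kite with vertices `(-1, 0)`, `(1, 0)`, `(x, √(1 - x²))`, `(x, -√(1 - x²))`,
inscribed in the unit circle. -/
noncomputable def kite (x : ℝ) : Set (EuclideanSpace ℝ (Fin 2)) :=
  {!₂[-1, 0], !₂[1, 0], !₂[x, Real.sqrt (1 - x ^ 2)], !₂[x, -Real.sqrt (1 - x ^ 2)]}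

end Vale.Agent.P058
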