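import Vale.Agent.P058.Kite

/-!
# P058 — right kites that are not subtransitive
-/

namespace Vale.Agent.P058

open scoped BigOperators InnerProductSpace

/-- the affine dependency of a kite holds for every congruent copy -/
theorem kite_dependency {x : ℝ} {n : ℕ} (Q : Fin 4 → EuclideanSpace ℝ (Fin n))
    (hQ : ∀ a b, dist (Q a) (Q b) = dist (kiteV x a) (kiteV x b)) (c : Fin n) :
    Q 2 c + Q 3 c = (1 - x) * Q 0 c + (1 + x) * Q 1 c := by
  let w : Fin 4 → ℝ := ![-(1 - x), -(1 + x), 1, 1]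
  have hw : ∑ a, w a = 0 := by
    simp only [w, Fin.sum_univ_four]
    simp
    ring
  have h1 : ∑ a, w a • kiteV x a = 0 := by
    simp only [w, Fin.sum_univ_four, kiteV]
    ext i
    fin_cases i <;> simp; ring
  have h2 : ⟪∑ a, w a • Q a, ∑ a, w a • Q a⟫_ℝ =
      ⟪∑ a, w a • kiteV x a, ∑ a, w a • kiteV x a⟫_ℝ := by
    rw [inner_sum_smul_sum_smul_of_sum_eq_zero Q hw Q hw,
      inner_sum_smul_sum_smul_of_sum_eq_zero (kiteV x) hw (kiteV x) hw]
    simp only [← dist_eq_norm, hQ]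
  rw [h1, inner_zero_left] at h2
  have h3 := inner_self_eq_zero.1 h2
  have h4 := congrArg (fun v : EuclideanSpace ℝ (Fin n) => v c) h3
  simp only [w, Fin.sum_univ_four] at h4
  simp at h4
  linarith

/-- the quadratic form of the proof is nonnegative, with equality only for constant rows -/
theorem kite_form {ξ : ℝ} (hξ : 1 < |ξ|) {r : Fin 4 → ℝ}
    (h : r 2 + r 3 = (1 - ξ) * r 0 + (1 + ξ) * r 1) :
    0 ≤ (ξ - 1) * r 0 ^ 2 - (1 + ξ) * r 1 ^ 2 + r 2 ^ 2 + r 3 ^ 2 ∧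
    ((ξ - 1) * r 0 ^ 2 - (1 + ξ) * r 1 ^ 2 + r 2 ^ 2 + r 3 ^ 2 = 0 → r 0 = r 1) := by
  set H := (ξ - 1) * r 0 ^ 2 - (1 + ξ) * r 1 ^ 2 + r 2 ^ 2 + r 3 ^ 2 with hH
  rcases lt_abs.1 hξ with h1 | h1
  · -- `ξ > 1`
    have key : (1 + ξ) * H = (ξ - 1) * (r 0 - r 2) ^ 2 + (ξ - 1) * (r 0 - r 3) ^ 2 +
        (r 2 - r 3) ^ 2 := by
      have h' : (1 + ξ) * r 1 = (ξ - 1) * r 0 + r 2 + r 3 := by linarith
      have : (1 + ξ) * H = (1 + ξ) * ((ξ - 1) * r 0 ^ 2 + r 2 ^ 2 + r 3 ^ 2) -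
          ((1 + ξ) * r 1) ^ 2 := by rw [hH]; ring
      rw [this, h']
      ring
    have hp : 0 < ξ - 1 := by linarith
    have hq : 0 < 1 + ξ := by linarith
    refine ⟨?_, fun h0 => ?_⟩
    · have : 0 ≤ (1 + ξ) * H := by rw [key]; positivity
      exact nonneg_of_mul_nonneg_right this hq
    · rw [h0, mul_zero] at key
      have e1 : (r 0 - r 2) ^ 2 = 0 := by
        nlinarith [sq_nonneg (r 0 - r 2), sq_nonneg (r 0 - r 3), sq_nonneg (r 2 - r 3),
          mul_nonneg hp.le (sq_nonneg (r 0 - r 2)), mul_nonneg hp.le (sq_nonneg (r 0 - r 3))]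
      have e2 : (r 0 - r 3) ^ 2 = 0 := by
        nlinarith [sq_nonneg (r 0 - r 2), sq_nonneg (r 0 - r 3), sq_nonneg (r 2 - r 3),
          mul_nonneg hp.le (sq_nonneg (r 0 - r 2)), mul_nonneg hp.le (sq_nonneg (r 0 - r 3))]
      have e3 : r 0 = r 2 := by
        have := pow_eq_zero_iff (two_ne_zero) |>.1 e1
        linarith
      have e4 : r 0 = r 3 := by
        have := pow_eq_zero_iff (two_ne_zero) |>.1 e2
        linarith
      rw [← e3, ← e4] at h
      have : (1 + ξ) * (r 0 - r 1) = 0 := by linarith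
      rcases mul_eq_zero.1 this with h | h
      · linarith
      · linarith
  · -- `ξ < -1`
    have key : (1 - ξ) * H = (-ξ - 1) * (r 1 - r 2) ^ 2 + (-ξ - 1) * (r 1 - r 3) ^ 2 +
        (r 2 - r 3) ^ 2 := by
      have h' : (1 - ξ) * r 0 = (-ξ - 1) * r 1 + r 2 + r 3 := by linarith
      have : (1 - ξ) * H = (1 - ξ) * ((-ξ - 1) * r 1 ^ 2 + r 2 ^ 2 + r 3 ^ 2) -
          ((1 - ξ) * r 0) ^ 2 := by rw [hH]; ring
      rw [this, h']
      ring
    have hp : 0 < -ξ - 1 := by linarith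
    have hq : 0 < 1 - ξ := by linarith
    refine ⟨?_, fun h0 => ?_⟩
    · have : 0 ≤ (1 - ξ) * H := by rw [key]; positivity
      exact nonneg_of_mul_nonneg_right this hq
    · rw [h0, mul_zero] at key
      have e1 : (r 1 - r 2) ^ 2 = 0 := by
        nlinarith [sq_nonneg (r 1 - r 2), sq_nonneg (r 1 - r 3), sq_nonneg (r 2 - r 3),
          mul_nonneg hp.le (sq_nonneg (r 1 - r 2)), mul_nonneg hp.le (sq_nonneg (r 1 - r 3))]
      have e2 : (r 1 - r 3) ^ 2 = 0 := by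
        nlinarith [sq_nonneg (r 1 - r 2), sq_nonneg (r 1 - r 3), sq_nonneg (r 2 - r 3),
          mul_nonneg hp.le (sq_nonneg (r 1 - r 2)), mul_nonneg hp.le (sq_nonneg (r 1 - r 3))]
      have e3 : r 1 = r 2 := by
        have := pow_eq_zero_iff (two_ne_zero) |>.1 e1
        linarith
      have e4 : r 1 = r 3 := by
        have := pow_eq_zero_iff (two_ne_zero) |>.1 e2
        linarith
      rw [← e3, ← e4] at h
      have : (1 - ξ) * (r 0 - r 1) = 0 := by linarith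
      rcases mul_eq_zero.1 this with h | h
      · linarith
      · linarith

/-- all copies of the kite in a transitive set: each vertex is equidistributed -/
theorem sum_copies {x : ℝ} {n : ℕ} {X : Set (EuclideanSpace ℝ (Fin n))} [Fintype X]
    (hX : IsTransitiveSet X) (𝒬 : Finset (Fin 4 → X))
    (h𝒬 : ∀ Q, Q ∈ 𝒬 ↔ ∀ a b, dist (Q a : EuclideanSpace ℝ (Fin n)) (Q b) =
      dist (kiteV x a) (kiteV x b)) (a : Fin 4) (f : X → ℝ) :
    (Fintype.card X : ℝ) * ∑ Q ∈ 𝒬, f (Q a) = (𝒬.card : ℝ) * ∑ z, f z := by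
  classical
  have hle : ∀ z z' : X, (𝒬.filter fun Q => Q a = z).card ≤ (𝒬.filter fun Q => Q a = z').card := by
    intro z z'
    obtain ⟨g, hg, hgz⟩ := hX z z.2 z' z'.2
    have hgX : ∀ y : X, g y ∈ X := fun y => by
      have h := Set.mem_image_of_mem g y.2
      rw [hg] at h
      exact h
    let e : X → X := fun y => ⟨g y, hgX y⟩
    refine Finset.card_le_card_of_injOn (fun Q => e ∘ Q) ?_ ?_
    · intro Q hQ
      rw [Finset.mem_coe, Finset.mem_filter] at hQ ⊢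
      refine ⟨?_, ?_⟩
      · rw [h𝒬]
        intro a b
        rw [← (h𝒬 Q).1 hQ.1 a b]
        exact g.isometry.dist_eq _ _
      · apply Subtype.ext
        change g (Q a) = z'
        rw [hQ.2, hgz]
    · intro Q _ Q' _ h
      funext b
      have := congrFun h b
      have h' : g (Q b) = g (Q' b) := congrArg Subtype.val this
      exact Subtype.ext (g.injective h')
  have hcard : ∀ z : X, (Fintype.card X) * (𝒬.filter fun Q => Q a = z).card = 𝒬.card := by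
    intro z
    have h1 : 𝒬.card = ∑ z' : X, (𝒬.filter fun Q => Q a = z').card :=
      Finset.card_eq_sum_card_fiberwise (fun Q _ => Finset.mem_coe.2 (Finset.mem_univ _))
    rw [h1, Finset.sum_congr rfl fun z' _ => le_antisymm (hle z' z) (hle z z'),
      Finset.sum_const, Finset.card_univ, smul_eq_mul]
  have h2 : ∑ Q ∈ 𝒬, f (Q a) = ∑ z : X, ((𝒬.filter fun Q => Q a = z).card : ℝ) * f z := by
    rw [← Finset.sum_fiberwise_of_maps_to (s := 𝒬) (t := Finset.univ) (g := fun Q => Q a)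
      (fun Q _ => Finset.mem_univ _)]
    refine Finset.sum_congr rfl fun z _ => ?_
    rw [Finset.sum_congr rfl fun Q hQ => by rw [(Finset.mem_filter.1 hQ).2], Finset.sum_const,
      nsmul_eq_mul]
  rw [h2, Finset.mul_sum, Finset.mul_sum]
  refine Finset.sum_congr rfl fun z _ => ?_
  rw [← mul_assoc]
  congr 1
  exact_mod_cast hcard z

/-- no copy of the kite lies in a finite transitive set -/
theorem no_copy_of_kite {K : Type} [Field K] [Algebra K ℝ] {x' : ℝ} (x : K)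
    (hxx : algebraMap K ℝ x = x') (hx : x' ^ 2 ≤ 1) (s : K →+* ℝ) (hs : 1 < |s x|)
    {n : ℕ} {X : Set (EuclideanSpace ℝ (Fin n))} [Fintype X] (hX : IsTransitiveSet X)
    (P : Fin 4 → X) (hP : ∀ a b, dist (P a : EuclideanSpace ℝ (Fin n)) (P b) =
      dist (kiteV x' a) (kiteV x' b)) : False := by
  classical
  let 𝒬 : Finset (Fin 4 → X) := Finset.univ.filter fun Q => ∀ a b,
    dist (Q a : EuclideanSpace ℝ (Fin n)) (Q b) = dist (kiteV x' a) (kiteV x' b)
  have h𝒬 : ∀ Q, Q ∈ 𝒬 ↔ ∀ a b, dist (Q a : EuclideanSpace ℝ (Fin n)) (Q b) =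
      dist (kiteV x' a) (kiteV x' b) := fun Q => by simp [𝒬]
  clear_value 𝒬
  -- the first two vertices are different
  have hne : (P 0 : EuclideanSpace ℝ (Fin n)) ≠ P 1 := by
    intro h
    have h1 := hP 0 1
    rw [h, dist_self] at h1
    have h2 := dist_sq_kiteV hx 0 1
    rw [← h1] at h2
    simp [alphaM, betaM] at h2
  obtain ⟨c0, hc0⟩ : ∃ c, (P 0 : EuclideanSpace ℝ (Fin n)) c ≠
      (P 1 : EuclideanSpace ℝ (Fin n)) c := by
    by_contra hcon
    push Not at hcon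
    exact hne (by ext c; exact hcon c)
  -- a linear functional over the field `K`
  obtain ⟨ℓ, hℓ⟩ : ∃ ℓ : Module.Dual K ℝ, ℓ ((P 0 : EuclideanSpace ℝ (Fin n)) c0 -
      (P 1 : EuclideanSpace ℝ (Fin n)) c0) ≠ 0 := by
    by_contra hcon
    push Not at hcon
    exact sub_ne_zero.2 hc0 ((Module.forall_dual_apply_eq_zero_iff K _).1 hcon)
  obtain ⟨lam, hlam⟩ : ∃ lam : ℝ → ℝ, ∀ t, lam t = s (ℓ t) := ⟨_, fun _ => rfl⟩
  have hlam_add : ∀ t t', lam (t + t') = lam t + lam t' := fun t t' => by simp [hlam]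
  have hlam_mul : ∀ (k : K) t, lam (algebraMap K ℝ k * t) = s k * lam t := fun k t => by
    rw [hlam, hlam, ← Algebra.smul_def, map_smul, smul_eq_mul, map_mul]
  -- the rows
  have hrow : ∀ Q ∈ 𝒬, ∀ c, lam ((Q 2 : EuclideanSpace ℝ (Fin n)) c) +
      lam ((Q 3 : EuclideanSpace ℝ (Fin n)) c) =
      (1 - s x) * lam ((Q 0 : EuclideanSpace ℝ (Fin n)) c) +
      (1 + s x) * lam ((Q 1 : EuclideanSpace ℝ (Fin n)) c) := by
    intro Q hQ c
    have h := kite_dependency (x := x') (fun a => (Q a : EuclideanSpace ℝ (Fin n)))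
      ((h𝒬 Q).1 hQ) c
    rw [← hlam_add, h, hlam_add]
    have e1 : (1 - x') = algebraMap K ℝ (1 - x) := by rw [map_sub, map_one, hxx]
    have e2 : (1 + x') = algebraMap K ℝ (1 + x) := by rw [map_add, map_one, hxx]
    rw [e1, e2, hlam_mul, hlam_mul, map_sub, map_add, map_one]
  obtain ⟨H, hH⟩ : ∃ H : (Fin 4 → X) → Fin n → ℝ, ∀ Q c, H Q c =
    (s x - 1) * lam ((Q 0 : EuclideanSpace ℝ (Fin n)) c) ^ 2 -
      (1 + s x) * lam ((Q 1 : EuclideanSpace ℝ (Fin n)) c) ^ 2 +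
      lam ((Q 2 : EuclideanSpace ℝ (Fin n)) c) ^ 2 +
      lam ((Q 3 : EuclideanSpace ℝ (Fin n)) c) ^ 2 := ⟨_, fun _ _ => rfl⟩
  have hform : ∀ Q ∈ 𝒬, ∀ c, 0 ≤ H Q c ∧ (H Q c = 0 →
      lam ((Q 0 : EuclideanSpace ℝ (Fin n)) c) = lam ((Q 1 : EuclideanSpace ℝ (Fin n)) c)) := by
    intro Q hQ c
    rw [hH]
    exact kite_form hs (r := fun a => lam ((Q a : EuclideanSpace ℝ (Fin n)) c)) (hrow Q hQ c)
  obtain ⟨f, hf⟩ : ∃ f : X → ℝ, ∀ z, f z = ∑ c, lam ((z : EuclideanSpace ℝ (Fin n)) c) ^ 2 :=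
    ⟨_, fun _ => rfl⟩
  have hsumH : ∑ Q ∈ 𝒬, ∑ c, H Q c = 0 := by
    have h1 : ∑ Q ∈ 𝒬, ∑ c, H Q c = (s x - 1) * ∑ Q ∈ 𝒬, f (Q 0) -
        (1 + s x) * ∑ Q ∈ 𝒬, f (Q 1) + ∑ Q ∈ 𝒬, f (Q 2) + ∑ Q ∈ 𝒬, f (Q 3) := by
      rw [Finset.mul_sum, Finset.mul_sum, ← Finset.sum_sub_distrib, ← Finset.sum_add_distrib,
        ← Finset.sum_add_distrib]
      refine Finset.sum_congr rfl fun Q _ => ?_
      simp only [hH, hf, Finset.sum_add_distrib, Finset.sum_sub_distrib, Finset.mul_sum]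
    have hcard : (Fintype.card X : ℝ) ≠ 0 := by
      have : Nonempty X := ⟨P 0⟩
      exact_mod_cast Fintype.card_ne_zero
    apply mul_left_cancel₀ hcard
    rw [h1, mul_zero]
    have e0 := sum_copies hX 𝒬 h𝒬 0 f
    have e1 := sum_copies hX 𝒬 h𝒬 1 f
    have e2 := sum_copies hX 𝒬 h𝒬 2 f
    have e3 := sum_copies hX 𝒬 h𝒬 3 f
    linear_combination (s x - 1) * e0 - (1 + s x) * e1 + e2 + e3
  have hPmem : P ∈ 𝒬 := (h𝒬 P).2 hP
  have h1 := (Finset.sum_eq_zero_iff_of_nonneg fun Q hQ =>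
    Finset.sum_nonneg fun c _ => (hform Q hQ c).1).1 hsumH P hPmem
  have h2 := (Finset.sum_eq_zero_iff_of_nonneg fun c _ => (hform P hPmem c).1).1 h1 c0
    (Finset.mem_univ _)
  have h3 := (hform P hPmem c0).2 h2
  have h4 : s (ℓ ((P 0 : EuclideanSpace ℝ (Fin n)) c0 -
      (P 1 : EuclideanSpace ℝ (Fin n)) c0)) = 0 := by
    rw [map_sub, map_sub, sub_eq_zero, ← hlam, ← hlam]
    exact h3
  exact hℓ ((map_eq_zero s).1 h4)

/-- **A criterion for a kite not to be subtransitive.** -/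
theorem not_isSubtransitive_kite {K : Type} [Field K] [Algebra K ℝ] {x' : ℝ} (x : K)
    (hxx : algebraMap K ℝ x = x') (hx : x' ^ 2 ≤ 1) (s : K →+* ℝ) (hs : 1 < |s x|) :
    ¬ IsSubtransitive (kite x') := by
  rintro ⟨n, X, hXfin, hX, φ, hφ, hφX⟩
  have : Fintype X := hXfin.fintype
  have hmem : ∀ a, kiteV x' a ∈ kite x' := fun a => by
    rw [← range_kiteV]; exact ⟨a, rfl⟩
  exact no_copy_of_kite x hxx hx s hs hX (fun a => ⟨φ ⟨kiteV x' a, hmem a⟩, hφX _⟩)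
    fun a b => hφ.dist_eq _ _

end Vale.Agent.P058
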