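import Vale.Agent.P058.Defs

/-!
# P058 — an obstruction to being Ramsey
-/

namespace Vale.Agent.P058

open scoped BigOperators InnerProductSpace

/-- coordinates of an isometric copy of a finite family of full affine span -/
theorem exists_coordinates {ι : Type} [Fintype ι] {d D : ℕ}
    (p : ι → EuclideanSpace ℝ (Fin d)) (hp : affineSpan ℝ (Set.range p) = ⊤)
    (x : ι → EuclideanSpace ℝ (Fin D)) (hx : ∀ j k, dist (x j) (x k) = dist (p j) (p k)) :
    ∃ (o : EuclideanSpace ℝ (Fin D)) (U : Fin d → EuclideanSpace ℝ (Fin D)),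
      (∀ a b, ⟪U a, U b⟫_ℝ = if a = b then 1 else 0) ∧
      ∀ j, x j = o + ∑ a, p j a • U a := by
  classical
  -- inner products of zero sum combinations agree
  have key : ∀ w w' : ι → ℝ, ∑ j, w j = 0 → ∑ j, w' j = 0 →
      ⟪∑ j, w j • x j, ∑ k, w' k • x k⟫_ℝ = ⟪∑ j, w j • p j, ∑ k, w' k • p k⟫_ℝ := by
    intro w w' h h'
    rw [inner_sum_smul_sum_smul_of_sum_eq_zero x h x h',
      inner_sum_smul_sum_smul_of_sum_eq_zero p h p h']
    simp only [← dist_eq_norm, hx]
  -- every point is an affine combination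
  have hcomb : ∀ q : EuclideanSpace ℝ (Fin d), ∃ w : ι → ℝ, ∑ j, w j = 1 ∧
      ∑ j, w j • p j = q := by
    intro q
    have hq : q ∈ affineSpan ℝ (Set.range p) := by rw [hp]; trivial
    obtain ⟨w, hw, hq'⟩ := eq_affineCombination_of_mem_affineSpan_of_fintype hq
    refine ⟨w, hw, ?_⟩
    rw [hq', Finset.affineCombination_eq_linear_combination _ _ _ hw]
  obtain ⟨w0, hw0, hp0⟩ := hcomb 0
  choose w hw hpw using fun a : Fin d => hcomb (EuclideanSpace.single a (1 : ℝ))
  refine ⟨∑ k, w0 k • x k, fun a => ∑ k, (w a k - w0 k) • x k, ?_, ?_⟩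
  · intro a b
    have h1 : ∀ a, ∑ k, (w a k - w0 k) = 0 := by
      intro a; rw [Finset.sum_sub_distrib, hw, hw0, sub_self]
    have h2 : ∀ a, ∑ k, (w a k - w0 k) • p k = EuclideanSpace.single a (1 : ℝ) := by
      intro a
      simp only [sub_smul, Finset.sum_sub_distrib, hpw, hp0, sub_zero]
    rw [key _ _ (h1 a) (h1 b), h2, h2]
    by_cases hab : a = b
    · subst hab; simp
    · simp [hab, EuclideanSpace.inner_single_left]
  · intro j
    have hW : ∑ k, ((if k = j then (1 : ℝ) else 0) - w0 k - ∑ a, p j a * (w a k - w0 k)) = 0 := by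
      rw [Finset.sum_sub_distrib, Finset.sum_sub_distrib, hw0, Finset.sum_comm]
      simp only [← Finset.mul_sum, Finset.sum_sub_distrib, hw, hw0]
      simp
    have hsum : ∀ {n : ℕ} (y : ι → EuclideanSpace ℝ (Fin n)),
        ∑ k, ((if k = j then (1 : ℝ) else 0) - w0 k - ∑ a, p j a * (w a k - w0 k)) • y k =
        y j - ∑ k, w0 k • y k - ∑ a, p j a • ∑ k, (w a k - w0 k) • y k := by
      intro n y
      simp only [sub_smul, Finset.sum_sub_distrib, Finset.sum_smul, ite_smul, one_smul, zero_smul,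
        Finset.sum_ite_eq', Finset.mem_univ, if_true, Finset.smul_sum, smul_sub, mul_smul, mul_sub]
      congr 1
      rw [Finset.sum_comm, Finset.sum_comm (f := fun k a => p j a • w0 k • y k)]
    have h3 := key _ _ hW hW
    rw [hsum x, hsum p] at h3
    have h4 : p j - ∑ k, w0 k • p k - ∑ a, p j a • ∑ k, (w a k - w0 k) • p k = 0 := by
      simp only [sub_smul, Finset.sum_sub_distrib, hpw, hp0, sub_zero]
      ext b
      simp [Finset.sum_apply, Pi.single_apply]
    rw [h4, inner_zero_left] at h3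
    have h5 := inner_self_eq_zero.1 h3
    rw [sub_sub, sub_eq_zero] at h5
    exact h5

/-- the colouring argument: real functions `g j` on `ℝ^D` (for every `D`) whose sum vanishes
identically, while the sum of the values `g j (x j)` is the size of `ι` on every copy `x`. -/
theorem not_isRamsey_of_functions {ι : Type} [Fintype ι] [Nonempty ι] {d : ℕ}
    (p : ι → EuclideanSpace ℝ (Fin d))
    (g : ∀ D : ℕ, ι → EuclideanSpace ℝ (Fin D) → ℝ)
    (h0 : ∀ D x, ∑ j, g D j x = 0)
    (h1 : ∀ D (x : ι → EuclideanSpace ℝ (Fin D)),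
      (∀ j k, dist (x j) (x k) = dist (p j) (p k)) → ∑ j, g D j (x j) = Fintype.card ι) :
    ¬ IsRamsey (Set.range p) := by
  classical
  intro hR
  set n : ℕ := Fintype.card ι with hn
  have hnpos : 0 < n := Fintype.card_pos
  have : NeZero (2 * n) := ⟨by omega⟩
  -- the set of colours
  let K := ι → Fin (2 * n)
  have hcard : 2 ≤ Fintype.card K := by
    simp only [K, Fintype.card_fun, Fintype.card_fin]
    calc 2 ≤ 2 * n := by omega
      _ = (2 * n) ^ 1 := (pow_one _).symm
      _ ≤ (2 * n) ^ Fintype.card ι := Nat.pow_le_pow_right (by omega) hnpos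
  obtain ⟨D, -, hD⟩ := hR (Fintype.card K) hcard
  let col : EuclideanSpace ℝ (Fin D) → K := fun x j =>
    ⟨(⌊g D j x⌋ % (2 * n : ℤ)).toNat, by
      have h1 := Int.emod_lt_of_pos ⌊g D j x⌋ (show (0 : ℤ) < 2 * n by omega)
      have h2 := Int.emod_nonneg ⌊g D j x⌋ (show (2 * n : ℤ) ≠ 0 by omega)
      omega⟩
  obtain ⟨φ, hφ, hc⟩ := hD (fun x => Fintype.equivFin K (col x))
  let x : ι → EuclideanSpace ℝ (Fin D) := fun j => φ ⟨p j, j, rfl⟩
  have hx : ∀ j k, dist (x j) (x k) = dist (p j) (p k) := by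
    intro j k
    exact hφ.dist_eq _ _
  have hcol : ∀ j k, col (x j) = col (x k) := fun j k =>
    (Fintype.equivFin K).injective (hc ⟨p j, j, rfl⟩ ⟨p k, k, rfl⟩)
  obtain ⟨j0⟩ : Nonempty ι := inferInstance
  have hmod : ∀ j, ∃ m : ℤ, ⌊g D j (x j)⌋ - ⌊g D j (x j0)⌋ = 2 * n * m := by
    intro j
    have h2 := congrFun (hcol j j0) j
    simp only [col, Fin.mk.injEq] at h2
    have h3 := Int.emod_nonneg ⌊g D j (x j)⌋ (show (2 * n : ℤ) ≠ 0 by omega)
    have h4 := Int.emod_nonneg ⌊g D j (x j0)⌋ (show (2 * n : ℤ) ≠ 0 by omega)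
    have h5 : ⌊g D j (x j)⌋ % (2 * n : ℤ) = ⌊g D j (x j0)⌋ % (2 * n : ℤ) := by omega
    obtain ⟨m, hm⟩ := Int.ModEq.dvd (show ⌊g D j (x j0)⌋ ≡ ⌊g D j (x j)⌋ [ZMOD (2 * n : ℤ)] from
      h5.symm)
    exact ⟨m, hm⟩
  choose m hm using hmod
  have hs : ∑ j, (g D j (x j) - g D j (x j0)) = n := by
    rw [Finset.sum_sub_distrib, h0, sub_zero, h1 D x hx]
  have hf : ∀ j, |(g D j (x j) - g D j (x j0)) - 2 * n * m j| < 1 := by
    intro j
    have e1 := Int.floor_le (g D j (x j))
    have e2 := Int.lt_floor_add_one (g D j (x j))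
    have e3 := Int.floor_le (g D j (x j0))
    have e4 := Int.lt_floor_add_one (g D j (x j0))
    have e5 : ((⌊g D j (x j)⌋ : ℤ) : ℝ) - (⌊g D j (x j0)⌋ : ℤ) = 2 * n * m j := by
      exact_mod_cast hm j
    rw [abs_lt]
    constructor <;> linarith
  have hlt : |∑ j, ((g D j (x j) - g D j (x j0)) - 2 * n * m j)| < n := by
    calc |∑ j, ((g D j (x j) - g D j (x j0)) - 2 * n * m j)|
        ≤ ∑ j, |(g D j (x j) - g D j (x j0)) - 2 * n * m j| := Finset.abs_sum_le_sum_abs _ _
      _ < ∑ _j : ι, (1 : ℝ) := Finset.sum_lt_sum_of_nonempty ⟨j0, Finset.mem_univ _⟩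
          (fun j _ => hf j)
      _ = n := by simp [hn]
  rw [Finset.sum_sub_distrib, hs, ← Finset.mul_sum] at hlt
  have hM : (∑ j, (m j : ℝ)) = ((∑ j, m j : ℤ) : ℝ) := by push_cast; rfl
  rw [hM] at hlt
  set M : ℤ := ∑ j, m j
  have hn' : (0 : ℝ) < n := by exact_mod_cast hnpos
  have h6 : |(1 : ℝ) - 2 * M| < 1 := by
    have : (n : ℝ) - 2 * n * M = n * (1 - 2 * M) := by ring
    rw [this, abs_mul, abs_of_pos hn'] at hlt
    exact (mul_lt_iff_lt_one_right hn').1 hlt
  have h7 : |(1 : ℤ) - 2 * M| < 1 := by exact_mod_cast h6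
  have h8 := Int.abs_lt_one_iff.1 h7
  omega

/-- **General obstruction.** -/
theorem not_isRamsey_of_identity {ι : Type} [Fintype ι] {d : ℕ}
    (p : ι → EuclideanSpace ℝ (Fin d)) (hp : affineSpan ℝ (Set.range p) = ⊤)
    (φ : ι → ℝ → ℝ) (θ : Fin d → Fin d → ℝ →+ ℝ)
    (h : ∀ (o : ℝ) (u : Fin d → ℝ), ∑ j, φ j (o + ∑ a, p j a * u a) = ∑ a, ∑ b, θ a b (u a * u b))
    (hc : ∑ a, θ a a 1 ≠ 0) : ¬ IsRamsey (Set.range p) := by
  classical
  have hne : Nonempty ι := by
    by_contra hcon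
    rw [not_nonempty_iff] at hcon
    apply hc
    have h2 : ∀ a, θ a a 1 = 0 := by
      intro a
      have := h 0 (Pi.single a 1)
      simp only [Finset.univ_eq_empty, Finset.sum_empty] at this
      rw [Finset.sum_eq_single a, Finset.sum_eq_single a] at this
      · simpa using this.symm
      · intro b _ hb; simp [hb]
      · simp
      · intro b _ hb; simp [hb]
      · simp
    simp [h2]
  set C := ∑ a, θ a a 1 with hC
  set n : ℝ := (Fintype.card ι : ℝ) with hn
  refine not_isRamsey_of_functions p (fun D j x => n / C * ∑ c, φ j (x c)) ?_ ?_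
  · intro D x
    rw [← Finset.mul_sum, Finset.sum_comm]
    have : ∀ c, ∑ j, φ j (x c) = 0 := by
      intro c
      have := h (x c) 0
      simpa using this
    simp [this]
  · intro D x hx
    obtain ⟨o, U, hU, hxU⟩ := exists_coordinates p hp x hx
    have h1 : ∀ c, ∑ j, φ j (x j c) = ∑ a, ∑ b, θ a b (U a c * U b c) := by
      intro c
      rw [← h (o c) (fun a => U a c)]
      refine Finset.sum_congr rfl fun j _ => ?_
      rw [hxU j]
      simp [Finset.sum_apply]
    rw [← Finset.mul_sum, Finset.sum_comm]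
    simp only [h1]
    rw [Finset.sum_comm]
    have h2 : ∀ a, ∑ c, ∑ b, θ a b (U a c * U b c) = θ a a 1 := by
      intro a
      rw [Finset.sum_comm]
      have h3 : ∀ b, ∑ c, θ a b (U a c * U b c) = θ a b (if a = b then 1 else 0) := by
        intro b
        rw [← map_sum, ← hU a b]
        congr 1
        rw [PiLp.inner_apply]
        refine Finset.sum_congr rfl fun c _ => ?_
        simp [mul_comm]
      simp only [h3]
      rw [Finset.sum_eq_single a]
      · simp
      · intro b _ hb; simp [Ne.symm hb]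
      · simp
    simp only [h2]
    rw [← hC, div_mul_cancel₀ _ hc]

end Vale.Agent.P058
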