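import Mathlib

/-!
# P058 — Ramsey's theorem in the form of deletion of background letters
-/

namespace Vale.Agent.P058

open Filter

/-- limit of a finite colouring of `ℕ` along a fixed free ultrafilter -/
theorem exists_ulim {κ : Type} [Finite κ] (F : ℕ → κ) :
    ∃ k, ∀ᶠ n in (hyperfilter ℕ : Filter ℕ), F n = k := by
  obtain ⟨k, hk⟩ := Ultrafilter.eq_pure_of_finite ((hyperfilter ℕ).map F)
  refine ⟨k, ?_⟩
  have : ({k} : Set κ) ∈ (hyperfilter ℕ).map F := by
    rw [hk]; exact Ultrafilter.mem_pure.2 rfl
  exact this

/-- the limit colour -/
noncomputable def ulim {κ : Type} [Finite κ] (F : ℕ → κ) : κ := (exists_ulim F).choose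

theorem ulim_spec {κ : Type} [Finite κ] (F : ℕ → κ) :
    ∀ᶠ n in (hyperfilter ℕ : Filter ℕ), F n = ulim F := (exists_ulim F).choose_spec

theorem eventually_gt_hyperfilter (n : ℕ) : ∀ᶠ k in (hyperfilter ℕ : Filter ℕ), n < k :=
  Nat.hyperfilter_le_atTop (eventually_gt_atTop n)

/-- iterated limit colour of a word, inserted in a point -/
noncomputable def limCol {σ κ : Type} [Finite κ] (C : (ℕ → σ) → κ) :
    List σ → (ℕ → σ) → κ
  | [], z => C z
  | t :: u, z => ulim fun q => limCol C u (Function.update z q t)

/-- infinite version of the deletion of background letters -/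
theorem exists_positions {σ κ : Type} [Finite σ] [DecidableEq σ] [Finite κ] (b : σ)
    (C : (ℕ → σ) → κ) (m : ℕ) : ∀ L : ℕ, ∃ p : Fin m → ℕ, StrictMono p ∧
      ∀ (w : Fin m → σ) (u : List σ), u.length ≤ L →
        limCol C u (Function.extend p w fun _ => b) =
          limCol C ((List.ofFn w).filter (· ≠ b) ++ u) fun _ => b := by
  induction m with
  | zero =>
    intro L
    refine ⟨Fin.elim0, fun i => i.elim0, fun w u _ => ?_⟩
    have : (Function.extend Fin.elim0 w fun _ => b) = fun _ : ℕ => b := by
      funext n
      rw [Function.extend_apply']
      rintro ⟨i, _⟩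
      exact i.elim0
    rw [this]
    simp
  | succ m ih =>
    intro L
    obtain ⟨p, hp, hpw⟩ := ih (L + 1)
    -- choose the new position
    have hfin : {u : List σ | u.length ≤ L}.Finite := List.finite_length_le σ L
    have h1 : ∀ᶠ q in (hyperfilter ℕ : Filter ℕ), ∀ w : Fin m → σ, ∀ t : σ,
        ∀ u ∈ {u : List σ | u.length ≤ L},
        limCol C u (Function.update (Function.extend p w fun _ => b) q t) =
          limCol C (t :: u) (Function.extend p w fun _ => b) := by
      rw [eventually_all]
      intro w
      rw [eventually_all]
      intro t
      rw [eventually_all_finite hfin]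
      intro u _
      exact ulim_spec fun q => limCol C u (Function.update (Function.extend p w fun _ => b) q t)
    have h2 : ∀ᶠ q in (hyperfilter ℕ : Filter ℕ), ∀ i : Fin m, p i < q := by
      rw [eventually_all]
      intro i
      exact eventually_gt_hyperfilter _
    obtain ⟨q, hq1, hq2⟩ := (h1.and h2).exists
    have hmono : StrictMono (Fin.snoc p q : Fin (m + 1) → ℕ) := by
      intro i j hij
      induction j using Fin.lastCases with
      | last =>
        induction i using Fin.lastCases with
        | last => exact absurd hij (lt_irrefl _)
        | cast i =>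
          simp only [Fin.snoc_last, Fin.snoc_castSucc]
          exact hq2 i
      | cast j =>
        induction i using Fin.lastCases with
        | last =>
          exact absurd (lt_trans hij (Fin.castSucc_lt_last j)) (lt_irrefl _)
        | cast i =>
          simp only [Fin.snoc_castSucc]
          exact hp (by simpa using hij)
    refine ⟨Fin.snoc p q, hmono, fun w u hu => ?_⟩
    set w0 : Fin m → σ := fun i => w i.castSucc with hw0
    set t := w (Fin.last m) with ht
    have hext : (Function.extend (Fin.snoc p q : Fin (m + 1) → ℕ) w fun _ => b) =
        Function.update (Function.extend p w0 fun _ => b) q t := by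
      funext n
      by_cases hn : n = q
      · subst hn
        rw [Function.update_self]
        have h := hmono.injective.extend_apply w (fun _ => b) (Fin.last m)
        rwa [Fin.snoc_last] at h
      · rw [Function.update_of_ne hn]
        by_cases hn' : ∃ i, p i = n
        · obtain ⟨i, rfl⟩ := hn'
          rw [hp.injective.extend_apply]
          have h := hmono.injective.extend_apply w (fun _ => b) i.castSucc
          rwa [Fin.snoc_castSucc] at h
        · rw [Function.extend_apply' _ _ _ hn', Function.extend_apply']
          rintro ⟨i, hi⟩
          induction i using Fin.lastCases with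
          | last => apply hn; rw [← hi]; simp
          | cast i => apply hn'; exact ⟨i, by rw [← hi]; simp⟩
    have hlist : List.ofFn w = List.ofFn w0 ++ [t] := by
      rw [List.ofFn_succ', List.concat_eq_append]
    rw [hext, hlist, List.filter_append]
    by_cases htb : t = b
    · have hupd : Function.update (Function.extend p w0 fun _ => b) q t =
          Function.extend p w0 fun _ => b := by
        rw [Function.update_eq_self_iff]
        rw [htb, Function.extend_apply']
        rintro ⟨i, hi⟩
        exact absurd (hq2 i) (by rw [hi]; exact lt_irrefl _)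
      rw [hupd, hpw w0 u (by omega)]
      simp [htb]
    · rw [hq1 w0 t u hu, hpw w0 (t :: u) (by simpa using hu)]
      simp [htb]

/-- **Ramsey's theorem**, in the following form. For a finite alphabet `σ` with a background
letter `b`, and every `m`, there is `D` such that for every finite colouring of `σ^D` there are
`m` positions such that the colour of a word supported there depends only on the sequence of its
letters different from `b`. -/
theorem ramsey_words {σ κ : Type} [Finite σ] [DecidableEq σ] [Finite κ] (b : σ) (m : ℕ) :
    ∃ D : ℕ, ∀ c : (Fin D → σ) → κ, ∃ p : Fin m → Fin D, StrictMono p ∧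
      ∀ w w' : Fin m → σ, (List.ofFn w).filter (· ≠ b) = (List.ofFn w').filter (· ≠ b) →
        c (Function.extend p w fun _ => b) = c (Function.extend p w' fun _ => b) := by
  by_contra hcon
  push Not at hcon
  choose c hc using hcon
  let C : (ℕ → σ) → κ := fun z => ulim fun D => c D fun i => z i
  obtain ⟨p, hp, hpw⟩ := exists_positions b C m 0
  have h1 : ∀ᶠ D in (hyperfilter ℕ : Filter ℕ), ∀ w : Fin m → σ,
      (c D fun i => Function.extend p w (fun _ => b) i) =
        C (Function.extend p w fun _ => b) := by
    rw [eventually_all]
    intro w
    exact ulim_spec fun D => c D fun i => Function.extend p w (fun _ => b) i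
  have h2 : ∀ᶠ D in (hyperfilter ℕ : Filter ℕ), ∀ i : Fin m, p i < D := by
    rw [eventually_all]
    intro i
    exact eventually_gt_hyperfilter _
  obtain ⟨D, hD1, hD2⟩ := (h1.and h2).exists
  let p' : Fin m → Fin D := fun i => ⟨p i, hD2 i⟩
  have hp' : StrictMono p' := fun i j hij => hp hij
  obtain ⟨w, w', hww, hne⟩ := hc D p' hp'
  apply hne
  have hext : ∀ w : Fin m → σ, (Function.extend p' w fun _ => b) =
      fun i : Fin D => Function.extend p w (fun _ => b) i := by
    intro w
    funext n
    by_cases hn : ∃ i, p' i = n
    · obtain ⟨i, rfl⟩ := hn
      rw [hp'.injective.extend_apply]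
      change w i = Function.extend p w (fun _ => b) (p i)
      rw [hp.injective.extend_apply]
    · rw [Function.extend_apply' _ _ _ hn, Function.extend_apply']
      rintro ⟨i, hi⟩
      exact hn ⟨i, Fin.ext hi⟩
  rw [hext, hext, hD1, hD1]
  have e1 := hpw w [] (le_refl _)
  have e2 := hpw w' [] (le_refl _)
  simp only [limCol, List.append_nil] at e1 e2
  rw [e1, e2, hww]

end Vale.Agent.P058
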